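import Vale.Agent.P128.EARN.Calc

/-! P128 EARN/Weyl. Weyl lemma for the Cauchy-Riemann operator. f1 = indicator of f. The convolution
of f1 with a smooth function of small support is holomorphic on a smaller ball (test function
w -> bump (z - w)). With a radial kernel rho, f_k = rho * f_k by the mean value property, and
rho * (bump_k * f1) = bump_k * (rho * f1) tends to rho * f1 everywhere, while f_k tends to f1 almost
everywhere. -/

namespace Vale.Agent.P128.EARN

open MeasureTheory Set Metric Filter Topology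
open scoped ENNReal Convolution

theorem holo_Weyl {g : ℂ → ℂ} {x : ℂ} {r s : ℝ} (hg : Integrable g)
    (h0 : ∀ φ : ℂ → ℝ, ContDiff ℝ (⊤ : ℕ∞) φ → HasCompactSupport φ → tsupport φ ⊆ ball x r →
      ∫ z, g z * gr φ z = 0) {φ : ℂ → ℝ} (hφ : ContDiff ℝ (⊤ : ℕ∞) φ)
    (hs : Function.support φ ⊆ closedBall 0 s) :
    DifferentiableOn ℂ (φ ⋆[ContinuousLinearMap.lsmul ℝ ℝ, volume] g) (ball x (r - s)) := by
  intro z hz
  have hc : HasCompactSupport φ :=
    HasCompactSupport.of_support_subset_isCompact (isCompact_closedBall 0 s) hs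
  have h1 : ContDiff ℝ 1 φ := hφ.of_le (by simp)
  have hd := hc.hasFDerivAt_convolution_right (ContinuousLinearMap.lsmul ℝ ℝ : ℝ →L[ℝ] ℂ →L[ℝ] ℂ).flip
    hg.locallyIntegrable h1 z
  rw [convolution_flip] at hd
  have hv : ∀ v : ℂ, fderiv ℝ (φ ⋆[ContinuousLinearMap.lsmul ℝ ℝ, volume] g) z v =
      ∫ t, g t * ((fderiv ℝ φ (z - t) v : ℝ) : ℂ) := fun v => by
    rw [hd.fderiv, convolution_precompR_apply _ hg.locallyIntegrable (hc.fderiv ℝ)
      (h1.continuous_fderiv one_ne_zero), convolution_def]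
    simp only [ContinuousLinearMap.flip_apply, ContinuousLinearMap.lsmul_apply, Complex.real_smul,
      mul_comm]
  have hi : ∀ v : ℂ, Integrable fun t => g t * ((fderiv ℝ φ (z - t) v : ℝ) : ℂ) := fun v => by
    have := ((hc.fderiv_apply ℝ v).convolutionExists_right
      (ContinuousLinearMap.lsmul ℝ ℝ : ℝ →L[ℝ] ℂ →L[ℝ] ℂ).flip hg.locallyIntegrable
      ((h1.continuous_fderiv one_ne_zero).clm_apply continuous_const) z).integrable
    simpa only [ContinuousLinearMap.flip_apply, ContinuousLinearMap.lsmul_apply, Complex.real_smul,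
      mul_comm] using this
  have hψ : ∀ t v : ℂ, fderiv ℝ (fun w => φ (z - w)) t v = -fderiv ℝ φ (z - t) v := fun t v => by
    have h2 : HasFDerivAt (fun w : ℂ => z - w) (-ContinuousLinearMap.id ℝ ℂ) t :=
      (hasFDerivAt_id t).const_sub z
    have h3 := ((h1.differentiable one_ne_zero (z - t)).hasFDerivAt.comp t h2).fderiv
    rw [show (fun w => φ (z - w)) = φ ∘ fun w => z - w from rfl, h3]
    simp
  have hsub : Function.support (fun w => φ (z - w)) ⊆ closedBall z s := fun w hw => by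
    have := hs hw
    rw [mem_closedBall_zero_iff] at this
    rwa [mem_closedBall, dist_comm, dist_eq_norm]
  have h4 := h0 (fun w => φ (z - w)) (hφ.comp (contDiff_const.sub contDiff_id))
    (HasCompactSupport.of_support_subset_isCompact (isCompact_closedBall z s) hsub)
    ((closure_minimal hsub isClosed_closedBall).trans
      (closedBall_subset_ball' (by linarith [mem_ball.1 hz])))
  have h5 : ∀ t, g t * gr (fun w => φ (z - w)) t =
      -(g t * ((fderiv ℝ φ (z - t) 1 : ℝ) : ℂ) +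
        Complex.I * (g t * ((fderiv ℝ φ (z - t) Complex.I : ℝ) : ℂ))) := fun t => by
    simp only [gr, hψ, Complex.ofReal_neg]
    ring
  simp only [h5] at h4
  rw [integral_neg, neg_eq_zero, integral_add (hi 1) ((hi _).const_mul _), integral_const_mul,
    ← hv, ← hv] at h4
  refine (differentiableAt_complex_iff_differentiableAt_real.2
    ⟨hd.differentiableAt, ?_⟩).differentiableWithinAt
  rw [smul_eq_mul]
  linear_combination (-Complex.I) * h4 +
    (fderiv ℝ (φ ⋆[ContinuousLinearMap.lsmul ℝ ℝ, volume] g) z Complex.I) * Complex.I_mul_I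

theorem rot_Weyl {c : ℂ} (hc : ‖c‖ = 1) : MeasurePreserving (fun w : ℂ => c * w) volume volume :=
  (rotation ⟨c, mem_sphere_zero_iff_norm.2 hc⟩).measurePreserving

theorem mean_Weyl {F : ℂ → ℂ} {ρ : ℂ → ℝ} {y : ℂ} {s : ℝ} {U : Set ℂ} (hU : IsOpen U)
    (hF : DifferentiableOn ℂ F U) (hFc : Continuous F) (hy : closedBall y s ⊆ U)
    (hρ : Continuous ρ) (hs : Function.support ρ ⊆ closedBall 0 s)
    (hc : ∀ c w : ℂ, ‖c‖ = 1 → ρ (c * w) = ρ w) (h1 : ∫ w, ρ w = 1) :
    (ρ ⋆[ContinuousLinearMap.lsmul ℝ ℝ, volume] F) y = F y := by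
  have hp : (0 : ℝ) ≤ 2 * Real.pi := by positivity
  have n1 : ∀ θ, ‖circleMap 0 1 θ‖ = 1 := fun θ => by simp
  have mem : ∀ c : ℂ, ‖c‖ ≤ 1 → ∀ w, ρ w ≠ 0 → y - c * w ∈ closedBall y s := fun c h w hw => by
    have := mem_closedBall_zero_iff.1 (hs hw)
    rw [mem_closedBall, dist_eq_norm, sub_sub_cancel_left, norm_neg, norm_mul]
    nlinarith [norm_nonneg w, norm_nonneg c]
  have hA : ∀ c : ℂ, ‖c‖ = 1 → ∫ w, ρ w • F (y - c * w) = ∫ w, ρ w • F (y - w) := fun c h => by
    have h0 : c ≠ 0 := by rintro rfl; simp at h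
    have := (rot_Weyl h).integral_comp (measurableEmbedding_mulLeft₀ h0)
      (fun w => ρ w • F (y - w))
    simpa only [hc c _ h] using this
  have hC : ∀ w, ∫ θ in Ioc 0 (2 * Real.pi), ρ w • F (y - circleMap 0 1 θ * w) =
      ρ w • ((2 * Real.pi : ℝ) • F y) := fun w => by
    by_cases hw : ρ w = 0
    · simp [hw]
    have hd : DiffContOnCl ℂ (fun c : ℂ => F (y - c * w)) (ball 0 |1|) := by
      refine DifferentiableOn.diffContOnCl fun c hc => ?_
      have hc' : ‖c‖ ≤ 1 := by simpa using closure_ball_subset_closedBall hc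
      exact ((hF.differentiableAt (hU.mem_nhds (hy (mem c hc' w hw)))).comp c
        (by fun_prop)).differentiableWithinAt
    have h2 := hd.circleAverage
    rw [Real.circleAverage_def, intervalIntegral.integral_of_le hp, zero_mul, sub_zero] at h2
    rw [integral_smul, ← h2, smul_smul (2 * Real.pi), mul_inv_cancel₀ (by positivity), one_smul]
  have hcs : HasCompactSupport ρ :=
    HasCompactSupport.of_support_subset_isCompact (isCompact_closedBall 0 s) hs
  have hi : Integrable ρ := hρ.integrable_of_hasCompactSupport hcs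
  obtain ⟨C, hCb⟩ := (isCompact_closedBall y s).exists_bound_of_continuousOn hFc.continuousOn
  have hI : Integrable (Function.uncurry fun (θ : ℝ) w => ρ w • F (y - circleMap 0 1 θ * w))
      ((volume.restrict (Ioc 0 (2 * Real.pi))).prod volume) := by
    refine Integrable.mono' ((hi.norm.mul_const C).comp_snd _)
      (Continuous.aestronglyMeasurable (by unfold Function.uncurry; fun_prop))
      (Eventually.of_forall fun p => ?_)
    by_cases hw : ρ p.2 = 0
    · simp [Function.uncurry, hw]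
    · simp only [Function.uncurry, norm_smul]
      exact mul_le_mul_of_nonneg_left (hCb _ (mem _ (n1 _).le _ hw)) (norm_nonneg _)
  have h2 := integral_integral_swap hI
  simp only [hA _ (n1 _), hC] at h2
  rw [integral_smul_const, h1, one_smul, setIntegral_const, Real.volume_real_Ioc_of_le hp,
    sub_zero] at h2
  rw [convolution_lsmul]
  exact smul_right_injective ℂ (by positivity) h2

theorem assoc_Weyl {g : ℂ → ℂ} (hg : Integrable g) {a b : ℂ → ℝ} (ha : Continuous a)
    (ha' : HasCompactSupport a) (hb : Continuous b) (hb' : HasCompactSupport b) (z : ℂ) :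
    ((a ⋆[ContinuousLinearMap.mul ℝ ℝ, volume] b) ⋆[ContinuousLinearMap.lsmul ℝ ℝ, volume] g) z =
      (a ⋆[ContinuousLinearMap.lsmul ℝ ℝ, volume]
        (b ⋆[ContinuousLinearMap.lsmul ℝ ℝ, volume] g)) z := by
  refine convolution_assoc _ _ _ _ (fun x y z => by simp [mul_smul]) ha.aestronglyMeasurable
    hb.aestronglyMeasurable hg.aestronglyMeasurable
    (Eventually.of_forall (ha'.convolutionExists_left _ ha hb.locallyIntegrable))
    (Eventually.of_forall (hb'.norm.convolutionExists_left _ hb.norm hg.norm.locallyIntegrable))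
    (ha'.norm.convolutionExists_left _ ha.norm ?_ z)
  exact (hb'.norm.continuous_convolution_left _ hb.norm hg.norm.locallyIntegrable).locallyIntegrable

theorem comm_Weyl {g : ℂ → ℂ} (hg : Integrable g) {a b : ℂ → ℝ} (ha : Continuous a)
    (ha' : HasCompactSupport a) (hb : Continuous b) (hb' : HasCompactSupport b) (z : ℂ) :
    (a ⋆[ContinuousLinearMap.lsmul ℝ ℝ, volume]
        (b ⋆[ContinuousLinearMap.lsmul ℝ ℝ, volume] g)) z =
      (b ⋆[ContinuousLinearMap.lsmul ℝ ℝ, volume]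
        (a ⋆[ContinuousLinearMap.lsmul ℝ ℝ, volume] g)) z := by
  rw [← assoc_Weyl hg ha ha' hb hb', ← assoc_Weyl hg hb hb' ha ha',
    ← convolution_flip (ContinuousLinearMap.mul ℝ ℝ) (f := a), ContinuousLinearMap.flip_mul]

theorem ker_Weyl {s : ℝ} (hs : 0 < s) : ∃ ρ : ℂ → ℝ, ContDiff ℝ (⊤ : ℕ∞) ρ ∧
    Function.support ρ ⊆ closedBall 0 s ∧ (∀ c w : ℂ, ‖c‖ = 1 → ρ (c * w) = ρ w) ∧
    ∫ w, ρ w = 1 := by
  have h1 : ContDiff ℝ (⊤ : ℕ∞) fun w : ℂ => expNegInvGlue (s ^ 2 - ‖w‖ ^ 2) :=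
    expNegInvGlue.contDiff.comp (contDiff_const.sub (contDiff_norm_sq ℝ))
  have h2 : Function.support (fun w : ℂ => expNegInvGlue (s ^ 2 - ‖w‖ ^ 2)) ⊆ closedBall 0 s :=
    fun w hw => by
      rw [mem_closedBall_zero_iff]
      by_contra h
      exact hw (expNegInvGlue.zero_of_nonpos (by nlinarith [not_le.1 h]))
  have h3 : 0 < ∫ w : ℂ, expNegInvGlue (s ^ 2 - ‖w‖ ^ 2) :=
    h1.continuous.integral_pos_of_hasCompactSupport_nonneg_nonzero (x := 0)
      (HasCompactSupport.of_support_subset_isCompact (isCompact_closedBall 0 s) h2)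
      (fun w => expNegInvGlue.nonneg _) (expNegInvGlue.pos_of_pos (by simpa using pow_pos hs 2)).ne'
  refine ⟨fun w => (∫ w : ℂ, expNegInvGlue (s ^ 2 - ‖w‖ ^ 2))⁻¹ * expNegInvGlue (s ^ 2 - ‖w‖ ^ 2),
    contDiff_const.mul h1, fun w hw => h2 (right_ne_zero_of_mul hw), fun c w hc => ?_, ?_⟩
  · simp only [norm_mul, hc, one_mul]
  · rw [integral_const_mul, inv_mul_cancel₀ h3.ne']

theorem glob_Weyl {g : ℂ → ℂ} {x : ℂ} {r : ℝ} (hr : 0 < r) (hg : Integrable g)
    (h0 : ∀ φ : ℂ → ℝ, ContDiff ℝ (⊤ : ℕ∞) φ → HasCompactSupport φ → tsupport φ ⊆ ball x r →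
      ∫ z, g z * gr φ z = 0) :
    ∃ F : ℂ → ℂ, DifferentiableOn ℂ F (ball x (r / 2)) ∧
      ∀ᵐ z, z ∈ ball x (r / 2) → F z = g z := by
  obtain ⟨ρ, hρ, hs, hc, h1⟩ := ker_Weyl (s := r / 8) (by positivity)
  have hcs : HasCompactSupport ρ :=
    HasCompactSupport.of_support_subset_isCompact (isCompact_closedBall 0 _) hs
  let φ : ℕ → ContDiffBump (0 : ℂ) := fun m =>
    ⟨r / 16 * (1 / ((m : ℝ) + 1)), 2 * (r / 16 * (1 / ((m : ℝ) + 1))), by positivity, by
      have : (0 : ℝ) < r / 16 * (1 / ((m : ℝ) + 1)) := by positivity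
      linarith⟩
  have ht : Tendsto (fun m => (φ m).rOut) atTop (𝓝 0) := by
    simpa [φ] using (tendsto_one_div_add_atTop_nhds_zero_nat.const_mul (r / 16)).const_mul (2 : ℝ)
  have hle : ∀ m, (φ m).rOut ≤ r / 8 := fun m => by
    have : 1 / ((m : ℝ) + 1) ≤ 1 := by
      rw [div_le_one (by positivity)]
      linarith [(Nat.cast_nonneg m : (0 : ℝ) ≤ m)]
    show 2 * (r / 16 * (1 / ((m : ℝ) + 1))) ≤ r / 8
    nlinarith
  refine ⟨ρ ⋆[ContinuousLinearMap.lsmul ℝ ℝ, volume] g,
    (holo_Weyl hg h0 hρ hs).mono (ball_subset_ball (by linarith)), ?_⟩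
  filter_upwards [ContDiffBump.ae_convolution_tendsto_right_of_locallyIntegrable (K := 2) ht
    (Eventually.of_forall fun m => le_rfl) hg.locallyIntegrable] with z hz hzb
  refine tendsto_nhds_unique ((ContDiffBump.convolution_tendsto_right_of_continuous (μ := volume) ht
    (hcs.continuous_convolution_left _ hρ.continuous hg.locallyIntegrable) z).congr fun m => ?_) hz
  rw [← comm_Weyl hg hρ.continuous hcs (φ m).continuous_normed (φ m).hasCompactSupport_normed]
  refine mean_Weyl isOpen_ball (holo_Weyl (s := r / 8) hg h0 (φ m).contDiff_normed ?_)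
    ((φ m).hasCompactSupport_normed.continuous_convolution_left _ (φ m).continuous_normed
      hg.locallyIntegrable) (closedBall_subset_ball' (by linarith [mem_ball.1 hzb]))
    hρ.continuous hs hc h1
  rw [(φ m).support_normed_eq]
  exact ball_subset_closedBall.trans (closedBall_subset_closedBall (hle m))

theorem set_Weyl {f : ℂ → ℂ} {S : Set ℂ} (hS : MeasurableSet S) {x : ℂ} {r : ℝ} (hr : 0 < r)
    (hf : IntegrableOn f S)
    (h0 : ∀ φ : ℂ → ℝ, ContDiff ℝ (⊤ : ℕ∞) φ → HasCompactSupport φ → tsupport φ ⊆ ball x r →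
      ∫ z in S, f z * gr φ z = 0) :
    ∃ F : ℂ → ℂ, DifferentiableOn ℂ F (ball x (r / 2)) ∧
      ∀ᵐ z, z ∈ ball x (r / 2) → z ∈ S → F z = f z := by
  obtain ⟨F, hF, h⟩ := glob_Weyl hr ((integrable_indicator_iff hS).2 hf) fun φ h1 h2 h3 => by
    rw [← h0 φ h1 h2 h3, ← integral_indicator hS]
    simp only [indicator_mul_left]
  exact ⟨F, hF, h.mono fun z hz h1 h2 => by rw [hz h1, indicator_of_mem h2]⟩

theorem weyl {f : ℂ → ℂ} {x : ℂ} {r : ℝ} (hr : 0 < r) (hf : IntegrableOn f (ball x r))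
    (h0 : ∀ φ : ℂ → ℝ, ContDiff ℝ (⊤ : ℕ∞) φ → HasCompactSupport φ → tsupport φ ⊆ ball x r →
      ∫ z in ball x r, f z * gr φ z = 0) :
    ∃ F : ℂ → ℂ, DifferentiableOn ℂ F (ball x (r / 2)) ∧
      ∀ᵐ z ∂(volume.restrict (ball x (r / 2))), F z = f z := by
  obtain ⟨F, hF, h⟩ := set_Weyl measurableSet_ball hr hf h0
  exact ⟨F, hF, (ae_restrict_iff' measurableSet_ball).2
    (h.mono fun z hz h1 => hz h1 (ball_subset_ball (by linarith) h1))⟩

/-- Version for functions continuous off a closed null set. -/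
theorem weyl_off {f : ℂ → ℂ} {K : Set ℂ} (hK : IsClosed K) (hv : volume K = 0) {x : ℂ} {r : ℝ}
    (hr : 0 < r) (hf : IntegrableOn f (ball x r \ K)) (hc : ContinuousOn f (ball x r \ K))
    (h0 : ∀ φ : ℂ → ℝ, ContDiff ℝ (⊤ : ℕ∞) φ → HasCompactSupport φ → tsupport φ ⊆ ball x r →
      ∫ z in ball x r \ K, f z * gr φ z = 0) :
    ∃ F : ℂ → ℂ, DifferentiableOn ℂ F (ball x (r / 2)) ∧ ∀ z ∈ ball x (r / 2) \ K, F z = f z := by
  have _ := hv
  obtain ⟨F, hF, h⟩ := set_Weyl (isOpen_ball.sdiff hK).measurableSet hr hf h0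
  have hs : ball x (r / 2) \ K ⊆ ball x r \ K :=
    sdiff_subset_sdiff_left (ball_subset_ball (by linarith))
  have ho : IsOpen (ball x (r / 2) \ K) := isOpen_ball.sdiff hK
  exact ⟨F, hF, Measure.eqOn_open_of_ae_eq (μ := volume) ((ae_restrict_iff' ho.measurableSet).2
    (h.mono fun z hz h1 => hz h1.1 (hs h1))) ho (hF.continuousOn.mono sdiff_subset) (hc.mono hs)⟩

end Vale.Agent.P128.EARN
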