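import Vale.Agent.P128.EARN.Calc

/-! P128 EARN/PotA. The field N z = integral of (2 pi)^-1 (conj w)^-1 h (z - w), that is
w / |w|^2. Plan: convolution of a locally integrable kernel with h in C_c^oo
(HasCompactSupport.contDiff_convolution_right, hasFDerivAt_convolution_right); divergence and curl
in polar coordinates (polar_int or Complex.integral_comp_polarCoord_symm): dh(z - w)(w)/|w|^2 is
minus the radial derivative of h(z - r e^(it)) over r, its integral in r is h z; dh(z - w)(i w)/|w|^2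
is minus the t derivative over r^2, its integral in t vanishes. Decay: |N z| <= C / (|z| - R). -/

namespace Vale.Agent.P128.EARN

open MeasureTheory Set Metric Filter Topology
open scoped ENNReal

theorem pol_PotA {F : ℂ → ℝ} {g : ℝ × ℝ → ℝ} (hg : Continuous g) {R : ℝ}
    (h0 : ∀ p, R < p.1 → g p = 0) (e : ∀ r θ, 0 < r → r * F (circleMap 0 r θ) = g (r, θ)) :
    ∫ w, F w = ∫ r in Ioi 0, ∫ θ in Ioo (-Real.pi) Real.pi, g (r, θ) ∧
      ∫ w, F w = ∫ θ in Ioo (-Real.pi) Real.pi, ∫ r in Ioi 0, g (r, θ) := by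
  have hm : MeasurableSet (Ioi (0 : ℝ) ×ˢ Ioo (-Real.pi) Real.pi) :=
    measurableSet_Ioi.prod measurableSet_Ioo
  have hi : IntegrableOn g (Ioi 0 ×ˢ Ioo (-Real.pi) Real.pi) :=
    (hg.continuousOn.integrableOn_compact ((isCompact_Icc (a := 0) (b := R)).prod
      (isCompact_Icc (a := -Real.pi) (b := Real.pi)))).of_forall_sdiff_eq_zero hm fun p hp =>
      h0 p (not_le.1 fun h => hp.2 ⟨⟨le_of_lt hp.1.1, h⟩, hp.1.2.1.le, hp.1.2.2.le⟩)
  have e1 : ∫ w, F w = ∫ p in Ioi 0 ×ˢ Ioo (-Real.pi) Real.pi, g p := by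
    rw [← Complex.integral_comp_polarCoord_symm]
    refine setIntegral_congr_fun hm fun p hp => ?_
    have : Complex.polarCoord.symm p = circleMap 0 p.1 p.2 := by
      rw [Complex.polarCoord_symm_apply, circleMap, Complex.exp_mul_I]
      simp
    exact (congrArg (fun w => p.1 * F w) this).trans (e _ _ hp.1)
  rw [e1, Measure.volume_eq_prod, IntegrableOn] at *
  rw [← Measure.prod_restrict] at hi ⊢
  exact ⟨integral_prod g hi, integral_prod_symm g hi⟩

theorem ker_PotA {r : ℝ} (hr : 0 < r) (θ : ℝ) :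
    r • ((starRingEnd ℂ) (circleMap 0 r θ))⁻¹ = circleMap 0 1 θ ∧
      circleMap 0 r θ = r • circleMap 0 1 θ := by
  have h : (r : ℂ) ≠ 0 := Complex.ofReal_ne_zero.2 hr.ne'
  refine ⟨?_, by simp [circleMap]⟩
  simp only [circleMap, zero_add, map_mul, Complex.conj_ofReal, ← Complex.exp_conj, Complex.conj_I,
    mul_neg, Complex.exp_neg, mul_inv, inv_inv, Complex.real_smul, Complex.ofReal_one, one_mul]
  rw [← mul_assoc, mul_inv_cancel₀ h, one_mul]

theorem int_PotA {h : ℂ → ℝ} (hh : ContDiff ℝ 1 h) (hc : HasCompactSupport h) (z : ℂ) :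
    ∫ w, fderiv ℝ h (z - w) ((starRingEnd ℂ) w)⁻¹ = 2 * Real.pi * h z ∧
      ∫ w, fderiv ℝ h (z - w) (((starRingEnd ℂ) w)⁻¹ * Complex.I) = 0 := by
  obtain ⟨R, hR⟩ := hc.isCompact.isBounded.subset_closedBall z
  have hout : ∀ w : ℂ, R < ‖w‖ → z - w ∉ tsupport h := fun w hw h' => by
    have := mem_closedBall.1 (hR h')
    rw [dist_eq_norm, sub_sub_cancel_left, norm_neg] at this
    exact this.not_gt hw
  have hD := hh.continuous_fderiv one_ne_zero
  have hd := fun w => (hh.differentiable one_ne_zero w).hasFDerivAt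
  have hz : ∀ p : ℝ × ℝ, R < p.1 → fderiv ℝ h (z - circleMap 0 p.1 p.2) = 0 := fun p hp =>
    fderiv_of_notMem_tsupport ℝ (hout _ (by
      rw [norm_circleMap_zero]
      exact hp.trans_le (le_abs_self _)))
  constructor
  · rw [(pol_PotA (g := fun p => fderiv ℝ h (z - circleMap 0 p.1 p.2) (circleMap 0 1 p.2))
      (by unfold circleMap; fun_prop) (fun p hp => by rw [hz p hp]; rfl) fun r θ hr => by
        rw [← smul_eq_mul, ← map_smul, (ker_PotA hr θ).1]).2]
    have e : ∀ θ, ∫ r in Ioi (0 : ℝ), fderiv ℝ h (z - circleMap 0 r θ) (circleMap 0 1 θ) = h z := by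
      intro θ
      have d : ∀ r : ℝ, HasDerivAt (fun r : ℝ => -h (z - r • circleMap 0 1 θ))
          (fderiv ℝ h (z - r • circleMap 0 1 θ) (circleMap 0 1 θ)) r := fun r => by
        have := ((hd _).comp_hasDerivAt r
          (((hasDerivAt_id r).smul_const (circleMap 0 1 θ)).const_sub z)).neg
        rw [one_smul, map_neg, neg_neg] at this
        exact this
      have s : HasCompactSupport fun r : ℝ => -h (z - r • circleMap 0 1 θ) :=
        HasCompactSupport.intro (isCompact_closedBall 0 R) fun r hr => by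
          rw [image_eq_zero_of_notMem_tsupport (hout _ ?_), neg_zero]
          simpa [norm_circleMap_zero] using hr
      have := s.integral_Ioi_deriv_eq (f := fun r : ℝ => -h (z - r • circleMap 0 1 θ))
        (hh.comp (by fun_prop)).neg 0
      rw [zero_smul, sub_zero, neg_neg] at this
      rw [← this]
      exact setIntegral_congr_fun measurableSet_Ioi fun r hr => by
        beta_reduce
        rw [(d r).deriv, (ker_PotA hr θ).2]
    simp only [e]
    rw [setIntegral_const, Real.volume_real_Ioo_of_le (by linarith [Real.pi_pos]), smul_eq_mul]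
    ring
  · rw [(pol_PotA (g := fun p => fderiv ℝ h (z - circleMap 0 p.1 p.2)
      (circleMap 0 1 p.2 * Complex.I)) (by unfold circleMap; fun_prop)
      (fun p hp => by rw [hz p hp]; rfl) fun r θ hr => by
        rw [← smul_eq_mul, ← map_smul, ← smul_mul_assoc, (ker_PotA hr θ).1]).1]
    refine setIntegral_eq_zero_of_forall_eq_zero fun r hr => ?_
    have d : ∀ θ ∈ uIcc (-Real.pi) Real.pi, HasDerivAt (fun θ => -r⁻¹ * h (z - circleMap 0 r θ))
        (fderiv ℝ h (z - circleMap 0 r θ) (circleMap 0 1 θ * Complex.I)) θ := fun θ _ => by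
      have := ((hd _).comp_hasDerivAt θ ((hasDerivAt_circleMap 0 r θ).const_sub z)).const_mul (-r⁻¹)
      refine this.congr_deriv ?_
      rw [map_neg, neg_mul_neg, ← smul_eq_mul, ← map_smul, ← smul_mul_assoc]
      congr 2
      rw [(ker_PotA hr θ).2, inv_smul_smul₀ (ne_of_gt hr)]
    have := intervalIntegral.integral_eq_sub_of_hasDerivAt d
      (Continuous.intervalIntegrable (by unfold circleMap; fun_prop) _ _)
    rw [intervalIntegral.integral_of_le (by linarith [Real.pi_pos]), integral_Ioc_eq_integral_Ioo,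
      ← periodic_circleMap 0 r (-Real.pi), show -Real.pi + 2 * Real.pi = Real.pi by ring,
      sub_self] at this
    exact this

theorem field_PotA {h : ℂ → ℝ} (hh : ContDiff ℝ (⊤ : ℕ∞) h) (hc : HasCompactSupport h) :
    ∃ N : ℂ → ℂ, ContDiff ℝ (⊤ : ℕ∞) N ∧
      (∀ z, (fderiv ℝ N z 1).re + (fderiv ℝ N z Complex.I).im = 2 * Real.pi * h z) ∧
      (∀ z, (fderiv ℝ N z 1).im = (fderiv ℝ N z Complex.I).re) ∧
      Tendsto N (Bornology.cobounded ℂ) (𝓝 0) := by
  have h1 : ContDiff ℝ 1 h := hh.of_le (by exact_mod_cast le_top)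
  have hk : LocallyIntegrable fun w : ℂ => ((starRingEnd ℂ) w)⁻¹ :=
    locallyIntegrable_of_norm_le_rpow (C := 1) (α := 1) (by simp) (by simp)
      (Eventually.of_forall fun w => by simp [Real.rpow_neg_one])
      (Complex.continuous_conj.measurable.inv).aestronglyMeasurable
  set L : ℂ →L[ℝ] ℝ →L[ℝ] ℂ := (ContinuousLinearMap.lsmul ℝ ℝ).flip with hL
  have hT : ∀ z (T : (ℂ →L[ℝ] ℂ) →L[ℝ] ℝ),
      T (fderiv ℝ (convolution (fun w : ℂ => ((starRingEnd ℂ) w)⁻¹) h L) z) =
        ∫ w, T (L.precompR ℂ ((starRingEnd ℂ) w)⁻¹ (fderiv ℝ h (z - w))) := fun z T => by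
    rw [(hc.hasFDerivAt_convolution_right L hk h1 z).fderiv, convolution_def,
      T.integral_comp_comm ((hc.fderiv ℝ).convolutionExists_right (L.precompR ℂ) hk
        (h1.continuous_fderiv one_ne_zero) z)]
  have hl : ∀ (D : ℂ →L[ℝ] ℝ) (v : ℂ), D v = D 1 * v.re + D Complex.I * v.im := fun D v => by
    conv_lhs => rw [show v = v.re • (1 : ℂ) + v.im • Complex.I by simp]
    rw [map_add, map_smul, map_smul, smul_eq_mul, smul_eq_mul, mul_comm, mul_comm v.im]
  refine ⟨_, hc.contDiff_convolution_right L hk hh, fun z => ?_, fun z => ?_, ?_⟩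
  · refine (hT z (Complex.reCLM ∘L ContinuousLinearMap.apply ℝ ℂ 1 +
      Complex.imCLM ∘L ContinuousLinearMap.apply ℝ ℂ Complex.I)).trans ?_
    rw [← (int_PotA h1 hc z).1]
    refine integral_congr_ae (Eventually.of_forall fun w => ?_)
    beta_reduce
    rw [hl (fderiv ℝ h (z - w))]
    generalize ((starRingEnd ℂ) w)⁻¹ = v
    simp [hL]
  · refine (sub_eq_zero.1 ((hT z (Complex.reCLM ∘L ContinuousLinearMap.apply ℝ ℂ Complex.I -
      Complex.imCLM ∘L ContinuousLinearMap.apply ℝ ℂ 1)).trans ?_)).symm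
    rw [← (int_PotA h1 hc z).2]
    refine integral_congr_ae (Eventually.of_forall fun w => ?_)
    beta_reduce
    rw [hl (fderiv ℝ h (z - w))]
    generalize ((starRingEnd ℂ) w)⁻¹ = v
    simp [hL]
    ring
  · obtain ⟨R, hR⟩ := hc.isCompact.isBounded.subset_closedBall 0
    have t : Tendsto (fun z : ℂ => ‖z‖ - R) (Bornology.cobounded ℂ) atTop :=
      tendsto_atTop_add_const_right _ (-R) tendsto_norm_cobounded_atTop
    refine squeeze_zero_norm' (a := fun z => (∫ w, ‖h w‖) * (‖z‖ - R)⁻¹) ?_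
      (by simpa using (tendsto_inv_atTop_zero.comp t).const_mul (∫ w, ‖h w‖))
    filter_upwards [t.eventually_gt_atTop 0] with z hz
    rw [convolution_eq_swap, ← integral_mul_const]
    refine norm_integral_le_of_norm_le
      ((hh.continuous.integrable_of_hasCompactSupport hc).norm.mul_const _)
      (Eventually.of_forall fun w => ?_)
    change ‖h w • ((starRingEnd ℂ) (z - w))⁻¹‖ ≤ _
    rw [norm_smul, norm_inv, RCLike.norm_conj]
    by_cases hw : w ∈ tsupport h
    · have := mem_closedBall_zero_iff.1 (hR hw)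
      exact mul_le_mul_of_nonneg_left (inv_anti₀ hz (by linarith [norm_sub_norm_le z w]))
        (norm_nonneg _)
    · simp [image_eq_zero_of_notMem_tsupport hw]

theorem exists_field {h : ℂ → ℝ} (hh : ContDiff ℝ (⊤ : ℕ∞) h) (hc : HasCompactSupport h) :
    ∃ N : ℂ → ℂ, ContDiff ℝ (⊤ : ℕ∞) N ∧
      (∀ z, (fderiv ℝ N z 1).re + (fderiv ℝ N z Complex.I).im = h z) ∧
      (∀ z, (fderiv ℝ N z 1).im = (fderiv ℝ N z Complex.I).re) ∧
      Tendsto N (Bornology.cobounded ℂ) (𝓝 0) := by
  obtain ⟨N, h1, h2, h3⟩ := field_PotA (h := fun z => (2 * Real.pi)⁻¹ * h z)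
    (contDiff_const.mul hh) hc.mul_left
  refine ⟨N, h1, fun z => ?_, h3⟩
  rw [h2, mul_inv_cancel_left₀ (by positivity)]

end Vale.Agent.P128.EARN
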