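import Vale.Agent.P128.EARN.Calc

/-! P128 EARN/Basic. Basic properties of the pieces. Plan: u is smooth off K
(smooth_of_holo); chi vanishes near K', equals 1 near G; tsupport (fderiv chi) is a compact subset
of the complement of K on which u is bounded; local energy bound AM0.upper_real; sepfun: q from PL,
kappa' = (1 - chi) kappa + q has zero derivative off K' (lc_of_deriv_TA3). -/

namespace Vale.Agent.P128.EARN

open MeasureTheory Set Metric Filter Topology
open scoped ENNReal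

variable {c : ℝ} {u : ℂ → ℝ} {K G K' U : Set ℂ} {χ : ℂ → ℝ} {a₀ : ℝ}

theorem Cfg.sets (hC : Cfg K G K' U χ a₀) :
    Disjoint G K' ∧ Uᶜ ⊆ tsupport χ ∧ Disjoint (tsupport χ) K' ∧
    IsCompact (tsupport (fderiv ℝ χ)) ∧ tsupport (fderiv ℝ χ) ⊆ Kᶜ ∧
    tsupport (fderiv ℝ χ) ⊆ U ∧ tsupport (fderiv ℝ χ) ⊆ tsupport χ ∧
    (∀ z ∈ tsupport χ, ∀ a : ℂ, ‖a‖ ≤ 2 * a₀ → z + a ∉ K') := by
  have h1 : Disjoint (tsupport χ) K' := hC.far.mono_left (self_subset_cthickening _)
  have h2 : tsupport (fderiv ℝ χ) ⊆ U := fun z hz => by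
    by_contra hn
    refine notMem_tsupport_iff_eventuallyEq.2 ?_ hz
    have e : χ =ᶠ[𝓝 z] fun _ => 1 := hC.one z hn
    exact e.fderiv.trans (Eventually.of_forall fun w => by simp)
  have h3 : tsupport (fderiv ℝ χ) ⊆ tsupport χ := tsupport_fderiv_subset ℝ
  refine ⟨disjoint_left.2 fun z hz hz' => hC.GU hz (hC.KU hz'), fun z hz => subset_tsupport _ ?_,
    h1, hC.supp.fderiv ℝ, fun z hz hK => ?_, h2, h3, fun z hz a ha hK => ?_⟩
  · rw [Function.mem_support, (hC.one z hz).self_of_nhds]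
    exact one_ne_zero
  · rw [hC.union] at hK
    exact hK.elim (fun h => hC.GU h (h2 hz)) fun h => disjoint_left.1 h1 (h3 hz) h
  · exact disjoint_left.1 hC.far (mem_cthickening_of_dist_le _ z _ _ hz (by simpa using ha)) hK

theorem hf_zero_Basic (u : ℂ → ℝ) {z : ℂ} (hz : z ∉ tsupport (fderiv ℝ χ)) : hf χ u z = 0 := by
  have e := notMem_tsupport_iff_eventuallyEq.1 hz
  have e' : ∀ v : ℂ, fderiv ℝ (fun w => fderiv ℝ χ w v) z = 0 := fun v => by
    have : (fun w => fderiv ℝ χ w v) =ᶠ[𝓝 z] fun _ => 0 := e.mono fun w hw => by simp [hw]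
    rw [this.fderiv_eq]
    simp
  simp [hf, lap, e', e.self_of_nhds]

theorem pieces (h : GM c u K) (hC : Cfg K G K' U χ a₀) :
    volume K = 0 ∧ ContDiffOn ℝ (⊤ : ℕ∞) (wf χ u) Gᶜ ∧ ContDiffOn ℝ (⊤ : ℕ∞) (sf χ u) K'ᶜ ∧
    ContDiff ℝ (⊤ : ℕ∞) (hf χ u) ∧ HasCompactSupport (hf χ u) ∧
    tsupport (hf χ u) ⊆ tsupport (fderiv ℝ χ) ∧
    (∀ z ∉ G, lap (wf χ u) z = hf χ u z) ∧ (∀ z ∉ K', lap (sf χ u) z = -hf χ u z) ∧
    (∀ z ∉ tsupport χ, wf χ u z = 0 ∧ gr (wf χ u) z = 0 ∧ gr (sf χ u) z = gr u z) ∧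
    (∀ z ∉ K, gr (wf χ u) z + gr (sf χ u) z = gr u z) ∧ (∀ z, wf χ u z + sf χ u z = u z) := by
  have hs := hC.sets
  have hKo : IsOpen Kᶜ := h.closed.isOpen_compl
  have hh : DifferentiableOn ℂ (dz u) Kᶜ := by rw [compl_eq_univ_sdiff]; exact h.holo
  have hu := (smooth_of_holo hKo (fun z hz => h.diff z ⟨mem_univ _, hz⟩) hh).1
  have hua : ∀ z ∉ K, ContDiffAt ℝ (⊤ : ℕ∞) u z := fun z hz => hu.contDiffAt (hKo.mem_nhds hz)
  have two : (2 : WithTop ℕ∞) ≤ (⊤ : ℕ∞) := WithTop.coe_le_coe.2 (le_top (a := (2 : ℕ∞)))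
  have hl : ∀ z ∉ K, lap u z = 0 := (holo_iff_lap hKo (hu.of_le two)).1 hh
  have hK : ∀ z, z ∉ G → z ∉ K' → z ∉ K := fun z h1 h2 h3 => by
    rw [hC.union] at h3
    exact h3.elim h1 h2
  have hKs : ∀ z ∈ K, hf χ u z = 0 := fun z hz => hf_zero_Basic u fun h' => hs.2.2.2.2.1 h' hz
  have w0 : ∀ z ∉ tsupport χ, wf χ u =ᶠ[𝓝 z] fun _ => 0 := fun z hz =>
    (notMem_tsupport_iff_eventuallyEq.1 hz).mono fun w hw => by simp [wf, hw]
  have w1 : ∀ z ∈ K', wf χ u =ᶠ[𝓝 z] fun _ => 0 := fun z hz =>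
    w0 z (disjoint_right.1 hs.2.2.1 hz)
  have s0 : ∀ z ∈ G, sf χ u =ᶠ[𝓝 z] fun _ => 0 := fun z hz =>
    (hC.one z (hC.GU hz)).mono fun w hw => by simp [sf, hw]
  have wa : ∀ z ∉ K, ContDiffAt ℝ (⊤ : ℕ∞) (wf χ u) z := fun z hz =>
    hC.smooth.contDiffAt.mul (hua z hz)
  have sa : ∀ z ∉ K, ContDiffAt ℝ (⊤ : ℕ∞) (sf χ u) z := fun z hz =>
    (contDiffAt_const.sub hC.smooth.contDiffAt).mul (hua z hz)
  have ht : tsupport (hf χ u) ⊆ tsupport (fderiv ℝ χ) :=
    closure_minimal (fun z hz => by_contra fun hn => hz (hf_zero_Basic u hn)) (isClosed_tsupport _)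
  have l0 : ∀ z, lap (fun _ => 0) z = 0 := fun z => by simp [lap]
  have lw : ∀ z ∉ K, lap (wf χ u) z = hf χ u z := fun z hz => by
    have e := (lap_add (hC.smooth.contDiffAt.of_le two) ((hua z hz).of_le two)).2.2
    rw [hl z hz, mul_zero, zero_add] at e
    exact e
  have hsum : ∀ z, wf χ u z + sf χ u z = u z := fun z => by simp only [wf, sf]; ring
  refine ⟨by simpa using h.toAM0.vol, fun z hz => ?_, fun z hz => ?_,
    contDiff_iff_contDiffAt.2 fun z => ?_,
    hs.2.2.2.1.of_isClosed_subset (isClosed_tsupport _) ht, ht, fun z hz => ?_, fun z hz => ?_,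
    fun z hz => ⟨(w0 z hz).self_of_nhds, ?_, ?_⟩, fun z hz => ?_, hsum⟩
  · by_cases h' : z ∈ K'
    · exact (contDiffAt_const.congr_of_eventuallyEq (w1 z h')).contDiffWithinAt
    · exact (wa z (hK z hz h')).contDiffWithinAt
  · by_cases h' : z ∈ G
    · exact (contDiffAt_const.congr_of_eventuallyEq (s0 z h')).contDiffWithinAt
    · exact (sa z (hK z h' hz)).contDiffWithinAt
  · by_cases h' : z ∈ tsupport (fderiv ℝ χ)
    · have hz := hs.2.2.2.2.1 h'
      have a1 : ContDiff ℝ (⊤ : ℕ∞) (fderiv ℝ χ) := hC.smooth.fderiv_right le_rfl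
      have a2 := (contDiffOn_gr hKo hu).1.contDiffAt (hKo.mem_nhds hz)
      have a3 := (contDiffOn_gr isOpen_univ hC.smooth.contDiffOn).2.2.contDiffAt
        (x := z) univ_mem
      exact (contDiffAt_const.mul (a1.contDiffAt.clm_apply a2)).add ((hua z hz).mul a3)
    · exact contDiffAt_const.congr_of_eventuallyEq
        (notMem_tsupport_iff_eventuallyEq.1 fun h'' => h' (ht h''))
  · by_cases h' : z ∈ K'
    · rw [(gr_congr (w1 z h')).2.2, l0, hKs z (hC.union ▸ Or.inr h')]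
    · exact lw z (hK z hz h')
  · by_cases h' : z ∈ G
    · rw [(gr_congr (s0 z h')).2.2, l0, hKs z (hC.union ▸ Or.inl h'), neg_zero]
    · have hz' := hK z h' hz
      have e : sf χ u = fun w => u w - wf χ u w := funext fun w => by rw [← hsum w]; ring
      rw [e, (lap_add ((hua z hz').of_le two) ((wa z hz').of_le two)).2.1, hl z hz', lw z hz',
        zero_sub]
  · rw [(gr_congr (w0 z hz)).1]
    simp [gr]
  · refine (gr_congr ((w0 z hz).mono fun w hw => ?_)).1
    rw [← hsum w, hw, zero_add]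
  · rw [← (gr_add ((wa z hz).differentiableAt (by simp)) ((sa z hz).differentiableAt (by simp))).1]
    exact congrArg (gr · z) (funext hsum)

theorem pieces_L2 (h : GM c u K) (hC : Cfg K G K' U χ a₀) :
    MemLp (gr (wf χ u)) 2 volume ∧
    (∀ R : ℝ, MemLp (gr (sf χ u)) 2 (volume.restrict (closedBall 0 R))) ∧
    (∀ R : ℝ, MemLp (gr u) 2 (volume.restrict (closedBall 0 R))) := by
  obtain ⟨hv, -, -, -, -, -, -, -, h0, hs, -⟩ := pieces h hC
  have hae : ∀ᵐ z, z ∉ K := measure_eq_zero_iff_ae_notMem.1 hv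
  have h3 : ∀ R : ℝ, MemLp (gr u) 2 (volume.restrict (closedBall 0 R)) := fun R => by
    have h1 := (h.toAM0.upper_real (y := 0) (r := |R| + 1) (by positivity) (subset_univ _)).1
    have h2 := (dir_eq u _).1.1 (h1 ▸ ENNReal.ofReal_lt_top)
    rw [Measure.restrict_congr_set (sdiff_null_ae_eq_self hv)] at h2
    exact h2.mono_measure (Measure.restrict_mono
      (closedBall_subset_closedBall (by linarith [le_abs_self R])) le_rfl)
  have h1 : MemLp (gr (wf χ u)) 2 volume := by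
    obtain ⟨R, hR⟩ := hC.supp.isBounded.subset_closedBall (0 : ℂ)
    have e : gr (wf χ u) = (closedBall (0 : ℂ) R).indicator (gr (wf χ u)) := funext fun z => by
      by_cases hz : z ∈ closedBall (0 : ℂ) R
      · rw [indicator_of_mem hz]
      · rw [indicator_of_notMem hz, (h0 z fun h' => hz (hR h')).2.1]
    rw [e, memLp_indicator_iff_restrict measurableSet_closedBall]
    obtain ⟨M, hM⟩ := hC.smooth.continuous.bounded_above_of_compact_support hC.supp
    have a1 : MemLp (fun z => (χ z : ℂ) * gr u z) 2 (volume.restrict (closedBall 0 R)) :=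
      (h3 R).of_le_mul (c := M) ((Complex.continuous_ofReal.comp hC.smooth.continuous).measurable.mul
        (measurable_gr u).1).aestronglyMeasurable (Eventually.of_forall fun z => by
          rw [norm_mul, Complex.norm_real]
          exact mul_le_mul_of_nonneg_right (hM z) (norm_nonneg _))
    have g0 : ∀ z ∉ tsupport (fderiv ℝ χ), (u z : ℂ) * gr χ z = 0 := fun z hz => by
      simp [gr, image_eq_zero_of_notMem_tsupport hz]
    have a2 : MemLp (fun z => (u z : ℂ) * gr χ z) 2 volume := by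
      refine Continuous.memLp_of_hasCompactSupport (continuous_iff_continuousAt.2 fun z => ?_)
        (HasCompactSupport.intro hC.sets.2.2.2.1 g0)
      by_cases h' : z ∈ tsupport (fderiv ℝ χ)
      · exact (Complex.continuous_ofReal.continuousAt.comp
          (h.diff z ⟨mem_univ _, hC.sets.2.2.2.2.1 h'⟩).continuousAt).mul
          ((contDiffOn_gr isOpen_univ hC.smooth.contDiffOn).1.contDiffAt univ_mem).continuousAt
      · refine continuousAt_const.congr (f := fun _ => (0 : ℂ)) ?_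
        filter_upwards [(isClosed_tsupport _).isOpen_compl.mem_nhds h'] with w hw
        exact (g0 w hw).symm
    refine (a1.add (a2.restrict _)).ae_eq (ae_restrict_of_ae (hae.mono fun z hz => ?_))
    exact (gr_add (hC.smooth.differentiable (by simp) z) (h.diff z ⟨mem_univ _, hz⟩)).2.2.2.2.symm
  refine ⟨h1, fun R => ((h3 R).sub (h1.restrict _)).ae_eq
    (ae_restrict_of_ae (hae.mono fun z hz => ?_)), h3⟩
  rw [Pi.sub_apply, ← hs z hz, add_sub_cancel_left]

theorem sepfun (hK : IsClosed K) (hC : Cfg K G K' U χ a₀) {R : ℝ}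
    (hR : tsupport χ ⊆ closedBall 0 R) {κ : ℂ → ℝ} (hκ : LC (univ \ K) κ) :
    ∃ κ' : ℂ → ℝ, LC (univ \ K') κ' ∧ ∀ z, z ∉ closedBall (0 : ℂ) R → κ' z = κ z := by
  have hs := hC.sets
  obtain ⟨q, hq, hq', hq0⟩ := PL (isOpen_univ.sdiff hK) hκ hC.smooth hs.2.2.2.1
    (fun z hz => ⟨mem_univ _, hs.2.2.2.2.1 hz⟩)
  have dq : ∀ z, HasFDerivAt q (κ z • fderiv ℝ χ z) z := fun z =>
    hq' z ▸ (hq.differentiable (by simp) z).hasFDerivAt
  have hd : ∀ z ∉ K', HasFDerivAt (fun w => (1 - χ w) * κ w + q w) (0 : ℂ →L[ℝ] ℝ) z := by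
    intro z hz
    by_cases h' : z ∈ K
    · have hG : z ∈ G := (hC.union ▸ h' : z ∈ G ∪ K').resolve_right hz
      have e : fderiv ℝ χ z = 0 :=
        image_eq_zero_of_notMem_tsupport fun h'' => hs.2.2.2.2.1 h'' h'
      have d := dq z
      rw [e, smul_zero] at d
      exact d.congr_of_eventuallyEq ((hC.one z (hC.GU hG)).mono fun w hw => by simp [hw])
    · have d := (((hC.smooth.differentiable (by simp) z).hasFDerivAt.const_sub 1).mul_const
        (κ z)).add (dq z)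
      rw [smul_neg, neg_add_cancel] at d
      exact d.congr_of_eventuallyEq ((hκ z ⟨mem_univ _, h'⟩).mono fun w hw => by simp [hw])
  refine ⟨fun w => (1 - χ w) * κ w + q w, fun z hz => ?_, fun z hz => ?_⟩
  · obtain ⟨r, hr, hb⟩ := Metric.isOpen_iff.1 hC.cK.isOpen_compl z hz.2
    filter_upwards [ball_mem_nhds z hr] with w hw
    exact isOpen_ball.is_const_of_fderiv_eq_zero (𝕜 := ℝ) (convex_ball z r).isPreconnected
      (fun x hx => (hd x (hb hx)).differentiableAt.differentiableWithinAt)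
      (fun x hx => (hd x (hb hx)).fderiv) hw (mem_ball_self hr)
  · have e1 : χ z = 0 := image_eq_zero_of_notMem_tsupport fun h => hz (hR h)
    have e2 := hq0 R (hs.2.2.2.2.2.2.1.trans hR) z (by simpa using hz)
    simp [e1, e2]

end Vale.Agent.P128.EARN
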