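import Vale.Agent.P128.EARN.Defs

/-! P128 EARN/Calc. Calculus of gr, dz, lap. Plan: unfold; Cauchy-Riemann through
HasFDerivAt over the reals with a complex linear derivative (differentiableAt_complex_iff or
Mathlib Complex/Harmonic/Analytic); symmetry of second derivatives; div_zero by
integral_fderiv_eq_zero type lemmas (integral_mul_fderiv_eq_neg_fderiv_mul_of_integrable with 1). -/

namespace Vale.Agent.P128.EARN

open MeasureTheory Set Metric Filter Topology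
open scoped ENNReal

theorem inner_Calc (φ : ℂ → ℝ) (z v : ℂ) : inner ℝ (gr φ z) v = (dz φ z * v).re := by
  rw [Complex.inner, (norm_dz φ z).2.2.1, Complex.conj_conj, mul_comm]

theorem fderiv_eq_inner (φ : ℂ → ℝ) (z v : ℂ) : fderiv ℝ φ z v = inner ℝ (gr φ z) v := by
  rw [inner_Calc, fderiv_eq_dz]

theorem inner_gr_eq (φ : ℂ → ℝ) (z v : ℂ) : inner ℝ (gr φ z) v = (dz φ z * v).re :=
  inner_Calc φ z v

theorem measurable_gr (φ : ℂ → ℝ) : Measurable (gr φ) ∧ Measurable (dz φ) := by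
  have h : ∀ v : ℂ, Measurable fun z => ((fderiv ℝ φ z v : ℝ) : ℂ) := fun v =>
    Complex.measurable_ofReal.comp (measurable_fderiv_apply_const ℝ φ v)
  exact ⟨(h 1).add ((h _).const_mul _), (h 1).sub ((h _).const_mul _)⟩

theorem gr_congr {φ ψ : ℂ → ℝ} {z : ℂ} (h : φ =ᶠ[𝓝 z] ψ) :
    gr φ z = gr ψ z ∧ dz φ z = dz ψ z ∧ lap φ z = lap ψ z := by
  have h1 : fderiv ℝ φ z = fderiv ℝ ψ z := h.fderiv_eq
  have h2 : ∀ v : ℂ, fderiv ℝ (fun w => fderiv ℝ φ w v) z = fderiv ℝ (fun w => fderiv ℝ ψ w v) z :=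
    fun v => EventuallyEq.fderiv_eq ((h.fderiv (𝕜 := ℝ)).mono fun w hw => by simp only [hw])
  exact ⟨by rw [gr, gr, h1], by rw [dz, dz, h1], by rw [lap, lap, h2, h2]⟩

theorem gr_add {φ ψ : ℂ → ℝ} {z : ℂ} (h1 : DifferentiableAt ℝ φ z) (h2 : DifferentiableAt ℝ ψ z) :
    gr (fun w => φ w + ψ w) z = gr φ z + gr ψ z ∧ gr (fun w => φ w - ψ w) z = gr φ z - gr ψ z ∧
    dz (fun w => φ w + ψ w) z = dz φ z + dz ψ z ∧ dz (fun w => φ w - ψ w) z = dz φ z - dz ψ z ∧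
    gr (fun w => φ w * ψ w) z = (φ z : ℂ) * gr ψ z + (ψ z : ℂ) * gr φ z := by
  simp only [gr, dz, fderiv_fun_add h1 h2, fderiv_fun_sub h1 h2, fderiv_fun_mul h1 h2,
    ContinuousLinearMap.add_apply, ContinuousLinearMap.sub_apply, ContinuousLinearMap.smul_apply,
    smul_eq_mul]
  push_cast
  refine ⟨by ring, by ring, by ring, by ring, by ring⟩

theorem gr_shift (φ : ℂ → ℝ) (a z : ℂ) (t : ℝ) :
    gr (fun w => φ (w - a)) z = gr φ (z - a) ∧ dz (fun w => φ (w - a)) z = dz φ (z - a) ∧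
    lap (fun w => φ (w - a)) z = lap φ (z - a) ∧ gr (fun w => t * φ w) z = (t : ℂ) * gr φ z := by
  have h : ∀ (f : ℂ → ℝ) (w : ℂ), fderiv ℝ (fun w => f (w - a)) w = fderiv ℝ f (w - a) :=
    fun f w => fderiv_comp_sub a
  have h2 : fderiv ℝ (fun w => t * φ w) z = t • fderiv ℝ φ z :=
    congrFun (fderiv_const_smul_field (𝕜 := ℝ) (f := φ) t) z
  refine ⟨by rw [gr, gr, h], by rw [dz, dz, h], ?_, ?_⟩
  · simp only [lap, h]
    rw [h (fun w => fderiv ℝ φ w 1), h (fun w => fderiv ℝ φ w Complex.I)]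
  · simp only [gr, h2, ContinuousLinearMap.smul_apply, smul_eq_mul]
    push_cast
    ring

theorem fd_Calc {φ : ℂ → ℝ} {z : ℂ} (h : ContDiffAt ℝ 2 φ z) : ContDiffAt ℝ 1 (fderiv ℝ φ) z :=
  h.fderiv_right (m := 1) (by norm_num)

theorem pd_Calc {φ : ℂ → ℝ} {z : ℂ} (h : ContDiffAt ℝ 2 φ z) (v : ℂ) :
    DifferentiableAt ℝ (fun w => fderiv ℝ φ w v) z :=
  ((fd_Calc h).clm_apply contDiffAt_const).differentiableAt one_ne_zero

theorem ev_Calc {φ : ℂ → ℝ} {z : ℂ} (h : ContDiffAt ℝ 2 φ z) :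
    ∀ᶠ w in 𝓝 z, DifferentiableAt ℝ φ w :=
  (h.eventually (by simp)).mono fun _ hw => hw.differentiableAt (by norm_num)

theorem symm_Calc {φ : ℂ → ℝ} {z : ℂ} (h : ContDiffAt ℝ 2 φ z) (v u : ℂ) :
    fderiv ℝ (fun w => fderiv ℝ φ w v) z u = fderiv ℝ (fun w => fderiv ℝ φ w u) z v := by
  have h1 : ∀ v u : ℂ, fderiv ℝ (fun w => fderiv ℝ φ w v) z u = fderiv ℝ (fderiv ℝ φ) z u v :=
    fun v u => by
      rw [fderiv_clm_apply ((fd_Calc h).differentiableAt one_ne_zero) (differentiableAt_const v)]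
      simp
  rw [h1, h1]
  exact h.isSymmSndFDerivAt (by simp) u v

theorem grgr_Calc (φ ψ : ℂ → ℝ) (z : ℂ) : inner ℝ (gr φ z) (gr ψ z) =
    fderiv ℝ φ z 1 * fderiv ℝ ψ z 1 + fderiv ℝ φ z Complex.I * fderiv ℝ ψ z Complex.I := by
  rw [inner_Calc]
  simp [dz, gr]

theorem lap_add {φ ψ : ℂ → ℝ} {z : ℂ} (h1 : ContDiffAt ℝ 2 φ z) (h2 : ContDiffAt ℝ 2 ψ z) :
    lap (fun w => φ w + ψ w) z = lap φ z + lap ψ z ∧
    lap (fun w => φ w - ψ w) z = lap φ z - lap ψ z ∧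
    lap (fun w => φ w * ψ w) z =
      φ z * lap ψ z + 2 * fderiv ℝ φ z (gr ψ z) + ψ z * lap φ z := by
  have d1 := h1.differentiableAt (by norm_num)
  have d2 := h2.differentiableAt (by norm_num)
  have a1 : ∀ v : ℂ, fderiv ℝ (fun w => fderiv ℝ (fun w => φ w + ψ w) w v) z =
      fderiv ℝ (fun w => fderiv ℝ φ w v) z + fderiv ℝ (fun w => fderiv ℝ ψ w v) z := fun v => by
    rw [← fderiv_fun_add (pd_Calc h1 v) (pd_Calc h2 v)]
    refine EventuallyEq.fderiv_eq ?_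
    filter_upwards [ev_Calc h1, ev_Calc h2] with w e1 e2
    rw [fderiv_fun_add e1 e2]
    rfl
  have a2 : ∀ v : ℂ, fderiv ℝ (fun w => fderiv ℝ (fun w => φ w - ψ w) w v) z =
      fderiv ℝ (fun w => fderiv ℝ φ w v) z - fderiv ℝ (fun w => fderiv ℝ ψ w v) z := fun v => by
    rw [← fderiv_fun_sub (pd_Calc h1 v) (pd_Calc h2 v)]
    refine EventuallyEq.fderiv_eq ?_
    filter_upwards [ev_Calc h1, ev_Calc h2] with w e1 e2
    rw [fderiv_fun_sub e1 e2]
    rfl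
  have a3 : ∀ v : ℂ, fderiv ℝ (fun w => fderiv ℝ (fun w => φ w * ψ w) w v) z v =
      φ z * fderiv ℝ (fun w => fderiv ℝ ψ w v) z v + 2 * (fderiv ℝ φ z v * fderiv ℝ ψ z v) +
        ψ z * fderiv ℝ (fun w => fderiv ℝ φ w v) z v := fun v => by
    have e : (fun w => fderiv ℝ (fun w => φ w * ψ w) w v) =ᶠ[𝓝 z]
        fun w => φ w * fderiv ℝ ψ w v + ψ w * fderiv ℝ φ w v := by
      filter_upwards [ev_Calc h1, ev_Calc h2] with w e1 e2
      rw [fderiv_fun_mul e1 e2]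
      rfl
    rw [e.fderiv_eq, fderiv_fun_add (d1.fun_mul (pd_Calc h2 v)) (d2.fun_mul (pd_Calc h1 v)),
      fderiv_fun_mul d1 (pd_Calc h2 v), fderiv_fun_mul d2 (pd_Calc h1 v)]
    simp only [ContinuousLinearMap.add_apply, ContinuousLinearMap.smul_apply, smul_eq_mul]
    ring
  simp only [lap, a1, a2, a3, ContinuousLinearMap.add_apply, ContinuousLinearMap.sub_apply]
  rw [fderiv_eq_inner φ z (gr ψ z), grgr_Calc]
  refine ⟨by ring, by ring, by ring⟩

theorem holo_Calc {q : ℂ → ℝ} {z : ℂ} (h : ContDiffAt ℝ 2 q z) :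
    DifferentiableAt ℂ (dz q) z ↔ lap q z = 0 := by
  have h1 : HasFDerivAt (dz q) _ z :=
    (Complex.ofRealCLM.hasFDerivAt.comp z (pd_Calc h 1).hasFDerivAt).sub
      ((Complex.ofRealCLM.hasFDerivAt.comp z (pd_Calc h Complex.I).hasFDerivAt).const_mul
        Complex.I)
  rw [differentiableAt_complex_iff_differentiableAt_real, h1.fderiv, and_iff_right
    h1.differentiableAt, lap, Complex.ext_iff]
  have h2 := symm_Calc h 1 Complex.I
  simp [h2]
  constructor <;> intro h3 <;> linarith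

theorem holo_iff_lap {U : Set ℂ} (hU : IsOpen U) {q : ℂ → ℝ} (hq : ContDiffOn ℝ 2 q U) :
    DifferentiableOn ℂ (dz q) U ↔ ∀ z ∈ U, lap q z = 0 := by
  refine forall₂_congr fun z hz => ?_
  rw [← holo_Calc (hq.contDiffAt (hU.mem_nhds hz))]
  exact ⟨fun h => h.differentiableAt (hU.mem_nhds hz), fun h => h.differentiableWithinAt⟩

theorem contDiffOn_gr {U : Set ℂ} (hU : IsOpen U) {q : ℂ → ℝ}
    (hq : ContDiffOn ℝ (⊤ : ℕ∞) q U) : ContDiffOn ℝ (⊤ : ℕ∞) (gr q) U ∧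
      ContDiffOn ℝ (⊤ : ℕ∞) (dz q) U ∧ ContDiffOn ℝ (⊤ : ℕ∞) (lap q) U := by
  have h : ∀ {f : ℂ → ℝ}, ContDiffOn ℝ (⊤ : ℕ∞) f U → ∀ v : ℂ,
      ContDiffOn ℝ (⊤ : ℕ∞) (fun w => fderiv ℝ f w v) U := fun hf v =>
    (hf.fderiv_of_isOpen hU (by simp)).clm_apply contDiffOn_const
  have h2 : ∀ v : ℂ, ContDiffOn ℝ (⊤ : ℕ∞) (fun w => ((fderiv ℝ q w v : ℝ) : ℂ)) U := fun v =>
    Complex.ofRealCLM.contDiff.comp_contDiffOn (h hq v)
  exact ⟨(h2 1).add (contDiffOn_const.mul (h2 _)), (h2 1).sub (contDiffOn_const.mul (h2 _)),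
    (h (h hq 1) 1).add (h (h hq _) _)⟩

theorem int_Calc {a b : ℂ → ℝ} {C : Set ℂ} (hC : IsCompact C) (ha : Continuous a)
    (h0 : ∀ z, z ∉ C → a z = 0) (hb : ContinuousOn b C) : Integrable fun z => a z * b z := by
  refine (integrableOn_iff_integrable_of_support_subset (s := C) fun z hz => ?_).1
    ((ha.continuousOn.mul hb).integrableOn_compact hC)
  by_contra h
  exact hz (by simp [h0 z h])

/-- Green's formula for a compactly supported factor. -/
theorem green {φ q : ℂ → ℝ} (hφ : ContDiff ℝ 1 φ) (hc : HasCompactSupport φ) {U : Set ℂ}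
    (hU : IsOpen U) (hs : tsupport φ ⊆ U) (hq : ContDiffOn ℝ 2 q U) :
    Integrable (fun z => inner ℝ (gr φ z) (gr q z)) ∧ Integrable (fun z => φ z * lap q z) ∧
      ∫ z, inner ℝ (gr φ z) (gr q z) = -∫ z, φ z * lap q z := by
  have g1 : ∀ v : ℂ, ContDiffOn ℝ 1 (fun w => fderiv ℝ q w v) U := fun v =>
    (hq.fderiv_of_isOpen hU (by norm_num)).clm_apply contDiffOn_const
  have z0 : ∀ z, z ∉ tsupport φ → φ z = 0 := fun z hz => image_eq_zero_of_notMem_tsupport hz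
  have i1 : ∀ v : ℂ, Integrable fun z => fderiv ℝ φ z v * fderiv ℝ q z v := fun v =>
    int_Calc hc ((hφ.continuous_fderiv one_ne_zero).clm_apply continuous_const)
      (fun z hz => by
        rw [Function.notMem_support.1 fun h => hz (support_fderiv_subset ℝ h)]
        rfl) ((g1 v).continuousOn.mono hs)
  have i2 : ∀ v : ℂ, Integrable fun z => φ z * fderiv ℝ (fun w => fderiv ℝ q w v) z v := fun v =>
    int_Calc hc hφ.continuous z0
      ((((g1 v).continuousOn_fderiv_of_isOpen hU le_rfl).clm_apply continuousOn_const).mono hs)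
  have i3 : ∀ v : ℂ, ∫ z, φ z * fderiv ℝ (fun w => fderiv ℝ q w v) z v =
      -∫ z, fderiv ℝ φ z v * fderiv ℝ q z v := fun v =>
    integral_mul_fderiv_eq_neg_fderiv_mul_of_integrable (i1 v) (i2 v)
      (int_Calc hc hφ.continuous z0 ((g1 v).continuousOn.mono hs))
      (fun x _ => hφ.differentiable one_ne_zero x)
      fun x hx => ((g1 v).contDiffAt (hU.mem_nhds (hs hx))).differentiableAt one_ne_zero
  simp only [grgr_Calc, lap, mul_add]
  refine ⟨(i1 1).add (i1 _), (i2 1).add (i2 _), ?_⟩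
  rw [integral_add (i1 1) (i1 _), integral_add (i2 1) (i2 _), i3, i3]
  ring

/-- Finite Dirichlet energy as square integrability of the gradient. -/
theorem dir_eq (φ : ℂ → ℝ) (S : Set ℂ) :
    (Dir φ S < ∞ ↔ MemLp (gr φ) 2 (volume.restrict S)) ∧
    (Dir φ S < ∞ → Dir φ S = ENNReal.ofReal (∫ z in S, ‖gr φ z‖ ^ 2)) := by
  have hm : AEStronglyMeasurable (gr φ) (volume.restrict S) :=
    (measurable_gr φ).1.aestronglyMeasurable
  have e : Dir φ S = ∫⁻ z in S, ENNReal.ofReal (‖gr φ z‖ ^ 2) :=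
    lintegral_congr fun z => by
      rw [(norm_dz φ z).2.1, ENNReal.ofReal_pow (norm_nonneg _), ofReal_norm_eq_enorm]
  have h0 : 0 ≤ᵐ[volume.restrict S] fun z => ‖gr φ z‖ ^ 2 :=
    Eventually.of_forall fun z => sq_nonneg _
  have h1 : Dir φ S < ∞ ↔ Integrable (fun z => ‖gr φ z‖ ^ 2) (volume.restrict S) := by
    rw [e, ← hasFiniteIntegral_iff_ofReal h0]
    exact (and_iff_right (hm.norm.pow 2)).symm
  refine ⟨h1.trans (memLp_two_iff_integrable_sq_norm hm).symm, fun h => ?_⟩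
  rw [ofReal_integral_eq_lintegral_ofReal (h1.1 h) h0, e]

end Vale.Agent.P128.EARN
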