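import Vale.Agent.P128.TC.Main
import Vale.Agent.P128.TB.Main

/-! P128 EARN/Cpt. A global minimizer with compact K has empty K. Plan: K in ball 0 R0; DI0 with
eta = 1/100, eps = 0 and T5 (G = univ, E = 0, m = 10, kappa = 0.51, r = R / tau, tau to 0) with
D <= 8 r give D u K 0 R = 0 for R > R0; then Dp = 0 almost everywhere (polar), T6 with P empty
gives zero length, against dens. -/

namespace Vale.Agent.P128.EARN

open MeasureTheory Set Metric Filter Topology
open scoped ENNReal

theorem D_zero_Cpt {c : ℝ} {u : ℂ → ℝ} {K : Set ℂ} (h : GM c u K) {R a : ℝ} (hR : 0 < R)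
    (hK : K ⊆ closedBall 0 R) (ha : R ≤ a) : D u K 0 a = 0 := by
  have h0 := h.toAM0
  have ha0 : 0 < a := hR.trans_le ha
  obtain ⟨C, -, hC⟩ := DI0 (η := 1 / 6) (by norm_num)
  have key : ∀ b, a ≤ b → D u K 0 a / a ^ (1 / (2 / 3 : ℝ)) ≤ 8 * b ^ (-(1 / 2) : ℝ) := by
    intro b hb
    have hb0 : 0 < b := ha0.trans_le hb
    obtain ⟨-, u2, -, -, -, -, u7, u8, u9⟩ := h0.upper_real (y := 0) hb0 (subset_univ _)
    have hfin : Dir u (ball 0 b \ K) < ∞ := by rw [u2]; exact ENNReal.ofReal_lt_top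
    have hp := polar h0.closed u 0
    have hf : ∀ᵐ s ∂(volume.restrict (Ioo 0 b)), Dp u K 0 s < ∞ :=
      ae_lt_top hp.1 (by rw [← (hp.2.2 b).1]; exact hfin.ne)
    have hsub : Ioo a b ⊆ Ioo 0 b := Ioo_subset_Ioo_left ha0.le
    have h5 := T5_exact h0.closed (y := 0) ha0 hb hfin (κ := 2 / 3) (by norm_num) (by
      filter_upwards [ae_restrict_of_ae_restrict_of_subset hsub hf,
        ae_restrict_of_ae_restrict_of_subset hsub (hC univ 0 True u K h0 0 b hb0 (subset_univ _)),
        ae_restrict_mem measurableSet_Ioo] with s h1 h2 hs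
      have hs0 : 0 < s := ha0.trans hs.1
      have he : K ∩ sphere 0 s = ∅ := by
        refine eq_empty_of_forall_notMem fun z hz => ?_
        have e1 := mem_closedBall.1 (hK hz.1)
        have e2 := mem_sphere.1 hz.2
        linarith [hs.1]
      have h3 := h2 he
      rw [mul_zero, zero_mul, zero_mul, ENNReal.ofReal_zero, add_zero,
        ← ENNReal.ofReal_toReal h1.ne, ← ENNReal.ofReal_mul (by positivity),
        ENNReal.ofReal_le_ofReal_iff (by positivity)] at h3
      linarith)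
    refine h5.trans ?_
    rw [div_le_iff₀ (Real.rpow_pos_of_pos hb0 _), mul_assoc, ← Real.rpow_add hb0]
    norm_num
    linarith
  have hl : Tendsto (fun b : ℝ => 8 * b ^ (-(1 / 2) : ℝ)) atTop (𝓝 (8 * 0)) :=
    (tendsto_rpow_neg_atTop (by norm_num)).const_mul 8
  have h1 := ge_of_tendsto hl ((eventually_ge_atTop a).mono key)
  rw [mul_zero, div_le_iff₀ (Real.rpow_pos_of_pos ha0 _), zero_mul] at h1
  exact le_antisymm h1 ENNReal.toReal_nonneg

theorem cpt {c : ℝ} {u : ℂ → ℝ} {K : Set ℂ} (h : GM c u K) (hc : IsCompact K) : K = ∅ := by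
  have h0 := h.toAM0
  obtain ⟨R, hR, hK⟩ := hc.isBounded.subset_closedBall_lt 0 (0 : ℂ)
  have hb0 : 0 < R + 1 := by linarith
  have hD := D_zero_Cpt h hR hK (a := R + 1) (by linarith)
  have u2 := (h0.upper_real (y := 0) hb0 (subset_univ _)).2.1
  have hp := polar h0.closed u 0
  rw [hD, ENNReal.ofReal_zero, (hp.2.2 _).1, lintegral_eq_zero_iff hp.1] at u2
  have hsub : Ioo R (R + 1) ⊆ Ioo 0 (R + 1) := Ioo_subset_Ioo_left hR.le
  haveI : (ae (volume.restrict (Ioo R (R + 1)))).NeBot := by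
    rw [ae_restrict_neBot]
    simp
  obtain ⟨s, h1, hs⟩ := ((ae_restrict_of_ae_restrict_of_subset hsub u2).and
    (ae_restrict_mem measurableSet_Ioo)).exists
  have hs0 : 0 < s := hR.trans hs.1
  have he : ((∅ : Finset ℂ) : Set ℂ) = K ∩ sphere 0 s := by
    rw [Finset.coe_empty]
    refine (eq_empty_of_forall_notMem fun z hz => ?_).symm
    have e1 := mem_closedBall.1 (hK hz.1)
    have e2 := mem_sphere.1 hz.2
    linarith [hs.1]
  have h6 := T6 h0 hs0 (subset_univ _) he (O := 0) (mem_closedBall_self (by positivity))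
  rw [Pi.zero_apply] at h1
  rw [h1] at h6
  simp only [Finset.sum_empty, ENNReal.ofReal_zero, mul_zero, zero_mul, add_zero] at h6
  refine eq_empty_of_forall_notMem fun y hy => ?_
  have h7 := h.dens y hy 1 one_pos (subset_univ _)
  have h8 : μH[1] (K ∩ ball y 1) ≤ μH[1] (K ∩ closedBall 0 s) :=
    measure_mono fun z hz => ⟨hz.1, closedBall_subset_closedBall hs.1.le (hK hz.1)⟩
  have h9 := h7.trans (h8.trans (le_add_self.trans h6))
  rw [mul_one, nonpos_iff_eq_zero, ENNReal.ofReal_eq_zero] at h9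
  linarith [h.cpos]

end Vale.Agent.P128.EARN
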