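import Vale.Agent.P128.EARN.Weyl
import Vale.Agent.P128.C.Cut
import Vale.Agent.P128.C.EnM

/-! P128 EARN/Curl. Consequences of removability. Plan: lc_const: eta = arctan kappa has zero
gradient off K, weyl_off gives F holomorphic with deriv zero off K, hence everywhere (K is null,
continuity), so constant. holo_ext: dz u * gr phi has real part inner (gr u) (gr phi) (zero integral
by GM.outer0) and imaginary part u_x phi_y - u_y phi_x; Rem for eta = M arctan (u / M) with the tests
phi_y (real part) and phi_x (imaginary part), symmetry of second derivatives, dominated convergence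
as M tends to infinity; weyl_off. -/

namespace Vale.Agent.P128.EARN

open MeasureTheory Set Metric Filter Topology
open scoped ENNReal

theorem fin_Curl (K : Set ℂ) (x : ℂ) (r : ℝ) : volume (ball x r \ K) < ∞ :=
  (measure_mono sdiff_subset).trans_lt measure_ball_lt_top

theorem en_Curl : ‖(0 : ℂ →L[ℝ] ℝ)‖ₑ ^ 2 = 0 := by
  rw [← ofReal_norm, norm_zero]
  simp

theorem zero_Curl {φ : ℂ → ℝ} {z : ℂ} (h : φ =ᶠ[𝓝 z] fun _ => φ z) :
    fderiv ℝ φ z = 0 ∧ gr φ z = 0 := by
  have h1 : fderiv ℝ φ z = 0 := by rw [h.fderiv_eq, fderiv_fun_const]; rfl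
  exact ⟨h1, by simp [gr, h1]⟩

theorem off_Curl {φ : ℂ → ℝ} {z : ℂ} (h : z ∉ tsupport φ) :
    φ z = 0 ∧ fderiv ℝ φ z = 0 ∧ gr φ z = 0 := by
  have h0 := image_eq_zero_of_notMem_tsupport h
  refine ⟨h0, zero_Curl ?_⟩
  rw [h0]
  exact notMem_tsupport_iff_eventuallyEq.1 h

theorem lc_const {K : Set ℂ} (hK : IsClosed K) (hv : volume K = 0) {x : ℂ} {r : ℝ} (hr : 0 < r)
    (hR : Rem K (ball x r)) {κ : ℂ → ℝ} (hκ : LC (ball x r \ K) κ) :
    ∃ b : ℝ, ∀ z ∈ ball x (r / 2) \ K, κ z = b := by
  have hO : IsOpen (ball x r \ K) := isOpen_ball.sdiff hK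
  have he : ∀ z ∈ ball x r \ K,
      (fun w => Real.arctan (κ w)) =ᶠ[𝓝 z] fun _ => Real.arctan (κ z) := fun z hz =>
    (hκ z hz).mono fun w hw => by simp only [hw]
  have hb : ∀ z, |Real.arctan (κ z)| ≤ Real.pi / 2 := fun z =>
    abs_le.2 ⟨(Real.neg_pi_div_two_lt_arctan _).le, (Real.arctan_lt_pi_div_two _).le⟩
  have hc : ContinuousOn (fun w => (Real.arctan (κ w) : ℂ)) (ball x r \ K) := fun z hz =>
    (Complex.continuous_ofReal.continuousAt.comp
      (continuousAt_const.congr (he z hz).symm)).continuousWithinAt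
  have hD : Dir (fun w => Real.arctan (κ w)) (ball x r \ K) = 0 := by
    refine (setLIntegral_congr_fun hO.measurableSet (g := fun _ => 0) fun z hz => ?_).trans
      lintegral_zero
    simp only [(zero_Curl (he z hz)).1, en_Curl]
  obtain ⟨F, hF, hFe⟩ := weyl_off hK hv hr (IntegrableOn.of_bound (fin_Curl K x r)
    (hc.aestronglyMeasurable hO.measurableSet) (Real.pi / 2) (Eventually.of_forall fun z => by
      rw [Complex.norm_real]; exact hb z)) hc fun φ h1 h2 h3 => by
    rw [← hR (fun w => Real.arctan (κ w)) ((locLip_iff hO).2 fun z hz =>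
      (lipAt_const _ z).congr (he z hz)) ⟨_, fun z _ => hb z⟩ (by rw [hD]; exact ENNReal.zero_lt_top)
      φ h1 h2 h3]
    refine setIntegral_congr_fun hO.measurableSet fun z hz => ?_
    simp [(zero_Curl (he z hz)).2]
  have hs : ball x (r / 2) \ K ⊆ ball x r \ K := sdiff_subset_sdiff_left (ball_subset_ball (by linarith))
  have hd : EqOn (deriv F) 0 (ball x (r / 2)) := by
    refine Measure.eqOn_open_of_ae_eq (μ := volume) ?_ isOpen_ball
      (hF.deriv isOpen_ball).continuousOn continuousOn_const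
    filter_upwards [ae_restrict_mem measurableSet_ball,
      ae_restrict_of_ae (measure_eq_zero_iff_ae_notMem.1 hv)] with z h1 h2
    have e : F =ᶠ[𝓝 z] fun _ => (Real.arctan (κ z) : ℂ) := by
      filter_upwards [(isOpen_ball.sdiff hK).mem_nhds ⟨h1, h2⟩, he z (hs ⟨h1, h2⟩)] with w h3 h4
      rw [hFe w h3, h4]
    rw [e.deriv_eq]
    simp
  obtain ⟨a, ha⟩ := isOpen_ball.exists_is_const_of_deriv_eq_zero (convex_ball _ _).isPreconnected hF hd
  refine ⟨Real.tan a.re, fun z hz => ?_⟩
  rw [← ha z hz.1, hFe z hz, Complex.ofReal_re, Real.tan_arctan]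

theorem Rem.mono {K : Set ℂ} {x : ℂ} {r r' : ℝ} (hR : Rem K (ball x r)) (hK : IsClosed K)
    (h : r' ≤ r) : Rem K (ball x r') := by
  rintro η hl ⟨M, hM⟩ hD φ h1 h2 h3
  have hO : IsOpen (ball x r \ K) := isOpen_ball.sdiff hK
  have hO' : IsOpen (ball x r' \ K) := isOpen_ball.sdiff hK
  have hs : ball x r' \ K ⊆ ball x r \ K := sdiff_subset_sdiff_left (ball_subset_ball h)
  obtain ⟨S, hS, hS1, hS2⟩ := exists_compact_between h2 isOpen_ball h3
  obtain ⟨ψ, N, T, hT, hTW, -, hψ, hψb, hψ1, hψ0⟩ := cutoff hS isOpen_ball hS2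
  have e0 : ∀ z, z ∉ T → (fun p => 0 + ψ p * id (η p)) =ᶠ[𝓝 z] fun _ => 0 := fun z hz => by
    filter_upwards [hT.isClosed.isOpen_compl.mem_nhds hz] with w hw
    simp [hψ0 w hw]
  have hl0 : LocallyLipschitzOn (ball x r' \ K) fun _ : ℂ => (0 : ℝ) :=
    (locLip_iff hO').2 fun z _ => lipAt_const _ z
  have k1 : Dir (fun p => 0 + ψ p * id (η p)) (ball x r' \ K) < ∞ := by
    refine (lintegral_mono_ae (g := fun z => 2 * ‖fderiv ℝ η z‖ₑ ^ 2 +
      ENNReal.ofReal (2 * (N * M) ^ 2)) ?_).trans_lt ?_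
    · filter_upwards [locLip_ae_diff hO' hl, ae_restrict_mem hO'.measurableSet] with z hz hz'
      have a1 := norm_fderiv_trunc (differentiableAt_const (0 : ℝ)) hz hψ hψb LipschitzWith.id
      have a2 := mul_le_mul_of_nonneg_left (hM z hz') N.coe_nonneg
      rw [fderiv_fun_const, Pi.zero_apply, norm_zero, zero_add] at a1
      rw [← ofReal_norm, ← ofReal_norm, ← ENNReal.ofReal_pow (norm_nonneg _),
        ← ENNReal.ofReal_pow (norm_nonneg _), ← ENNReal.ofReal_ofNat 2,
        ← ENNReal.ofReal_mul (by positivity), ← ENNReal.ofReal_add (by positivity) (by positivity)]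
      refine ENNReal.ofReal_le_ofReal ((pow_le_pow_left₀ (norm_nonneg _)
        (a1.trans (add_le_add le_rfl a2)) 2).trans ?_)
      nlinarith [sq_nonneg (‖fderiv ℝ η z‖ - N * M)]
    · rw [lintegral_add_right _ measurable_const, setLIntegral_const,
        lintegral_const_mul' _ _ ENNReal.ofNat_ne_top]
      exact ENNReal.add_lt_top.2 ⟨ENNReal.mul_lt_top ENNReal.ofNat_lt_top hD,
        ENNReal.mul_lt_top ENNReal.ofReal_lt_top (fin_Curl K x r')⟩
  have k2 := hR (fun p => 0 + ψ p * id (η p)) ((locLip_iff hO).2 fun z hz => by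
      by_cases hz' : z ∈ T
      · exact (locLip_iff hO').1 (locLip_trunc hl0 hl hψ hψb LipschitzWith.id) z ⟨hTW hz', hz.2⟩
      · exact (lipAt_const 0 z).congr (e0 z hz'))
    ⟨|M|, fun z hz => by
      by_cases hz' : z ∈ T
      · rw [zero_add, abs_mul]
        exact (mul_le_of_le_one_left (abs_nonneg _) (hψb z)).trans
          ((hM z ⟨hTW hz', hz.2⟩).trans (le_abs_self M))
      · simp [hψ0 z hz']⟩
    (by
      refine (lintegral_mono_set (t := (ball x r' \ K) ∪ Tᶜ) fun z hz => ?_).trans_lt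
        ((lintegral_union_le _ _ _).trans_lt (ENNReal.add_lt_top.2 ⟨k1, ?_⟩))
      · by_cases hz' : z ∈ T
        · exact Or.inl ⟨hTW hz', hz.2⟩
        · exact Or.inr hz'
      · rw [setLIntegral_congr_fun hT.measurableSet.compl (g := fun _ => 0) fun z hz => by
          simp only [(e0 z hz).fderiv_eq, fderiv_fun_const, Pi.zero_apply, en_Curl]]
        simp)
    φ h1 h2 (h3.trans (ball_subset_ball h))
  rw [setIntegral_eq_of_subset_of_forall_sdiff_eq_zero hO.measurableSet hs fun z hz => by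
    have := off_Curl (φ := φ) (z := z) fun hz' => hz.2 ⟨h3 hz', hz.1.2⟩
    simp [this.1, this.2.2]] at k2
  rw [← k2]
  refine setIntegral_congr_fun hO'.measurableSet fun z _ => ?_
  by_cases hz : z ∈ tsupport φ
  · have e1 : (fun p => 0 + ψ p * id (η p)) =ᶠ[𝓝 z] η := by
      filter_upwards [mem_interior_iff_mem_nhds.1 (hS1 hz)] with w hw
      simp [hψ1 w hw]
    simp only [(gr_congr e1).1, e1.self_of_nhds]
  · have := off_Curl hz
    simp [this.1, this.2.2]

theorem test_Curl {φ : ℂ → ℝ} (h1 : ContDiff ℝ (⊤ : ℕ∞) φ) (h2 : HasCompactSupport φ) :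
    (Continuous φ ∧ ∃ C, ∀ z, ‖φ z‖ ≤ C) ∧ Continuous (gr φ) ∧ ∃ C, ∀ z, ‖gr φ z‖ ≤ C := by
  refine ⟨⟨h1.continuous, h2.exists_bound_of_continuous h1.continuous⟩,
    continuousOn_univ.1 (contDiffOn_gr isOpen_univ h1.contDiffOn).1.continuousOn, ?_⟩
  obtain ⟨C, hC⟩ := (h2.fderiv ℝ).exists_bound_of_continuous (h1.continuous_fderiv (by simp))
  exact ⟨C, fun z => (norm_dz φ z).2.1 ▸ hC z⟩

theorem intgr_Curl {K : Set ℂ} {x : ℂ} {r : ℝ} {η : ℂ → ℝ} (hD : Dir η (ball x r \ K) < ∞) :
    IntegrableOn (gr η) (ball x r \ K) := by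
  have : IsFiniteMeasure (volume.restrict (ball x r \ K)) :=
    isFiniteMeasure_restrict.2 (fin_Curl K x r).ne
  exact ((dir_eq η _).1.1 hD).integrable one_le_two

theorem curl_Curl {K : Set ℂ} (hK : IsClosed K) {x : ℂ} {r : ℝ} (hR : Rem K (ball x r))
    {η : ℂ → ℝ} (hl : LocallyLipschitzOn (ball x r \ K) η) {M : ℝ}
    (hM : ∀ z ∈ ball x r \ K, |η z| ≤ M) (hD : Dir η (ball x r \ K) < ∞) {φ : ℂ → ℝ}
    (h1 : ContDiff ℝ (⊤ : ℕ∞) φ) (h2 : HasCompactSupport φ) (h3 : tsupport φ ⊆ ball x r) :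
    ∫ z in ball x r \ K, (dz η z * gr φ z).im = 0 := by
  have hO : IsOpen (ball x r \ K) := isOpen_ball.sdiff hK
  have hf : ContDiff ℝ (⊤ : ℕ∞) (fderiv ℝ φ) := h1.fderiv_right (by simp)
  have iη : IntegrableOn (fun z => (η z : ℂ)) (ball x r \ K) :=
    IntegrableOn.of_bound (fin_Curl K x r) ((Complex.continuous_ofReal.comp_continuousOn
      hl.continuousOn).aestronglyMeasurable hO.measurableSet) M (by
        filter_upwards [ae_restrict_mem hO.measurableSet] with z hz
        rw [Complex.norm_real]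
        exact hM z hz)
  have key : ∀ v : ℂ, IntegrableOn (fun z => ((fderiv ℝ φ z v : ℝ) : ℂ) * gr η z +
      (η z : ℂ) * gr (fun w => fderiv ℝ φ w v) z) (ball x r \ K) ∧
      ∫ z in ball x r \ K, (((fderiv ℝ φ z v : ℝ) : ℂ) * gr η z +
        (η z : ℂ) * gr (fun w => fderiv ℝ φ w v) z) = 0 := fun v => by
    have a1 : ContDiff ℝ (⊤ : ℕ∞) fun w => fderiv ℝ φ w v := hf.clm_apply contDiff_const
    have a2 := h2.fderiv_apply ℝ v
    obtain ⟨⟨c1, C1, b1⟩, c2, C2, b2⟩ := test_Curl a1 a2
    refine ⟨((intgr_Curl hD).bdd_mul (c := C1)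
      (Complex.continuous_ofReal.comp c1).aestronglyMeasurable (Eventually.of_forall fun z => ?_)).add
      (iη.mul_bdd c2.aestronglyMeasurable (Eventually.of_forall b2)),
      hR η hl ⟨M, hM⟩ hD _ a1 a2 ((tsupport_fderiv_apply_subset ℝ v).trans h3)⟩
    exact (Complex.norm_real _).trans_le (b1 z)
  have sy : ∀ z, fderiv ℝ (fun w => fderiv ℝ φ w Complex.I) z 1 =
      fderiv ℝ (fun w => fderiv ℝ φ w 1) z Complex.I := fun z => by
    have hd := hf.differentiable (by simp) z
    rw [fderiv_clm_apply hd (differentiableAt_const _), fderiv_clm_apply hd (differentiableAt_const _)]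
    simpa using (h1.contDiffAt.isSymmSndFDerivAt (by simp; exact ENat.LEInfty.out)).eq 1 Complex.I
  have e1 := integral_re (key Complex.I).1
  have e2 := integral_im (key 1).1
  rw [(key _).2, map_zero] at e1 e2
  have e3 := integral_sub (key Complex.I).1.re (key 1).1.im
  rw [e1, e2, sub_zero] at e3
  rw [← e3]
  refine integral_congr_ae (Eventually.of_forall fun z => ?_)
  simp [dz, gr, sy z]
  ring

theorem trunc_Curl {u : ℂ → ℝ} {z : ℂ} (hu : DifferentiableAt ℝ u z) {t : ℝ} (ht : 0 < t) :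
    fderiv ℝ (fun w => t * Real.arctan (u w / t)) z = (1 / (1 + (u z / t) ^ 2)) • fderiv ℝ u z := by
  have h1 : HasDerivAt (fun s => t * Real.arctan (s / t)) (1 / (1 + (u z / t) ^ 2)) (u z) :=
    ((((hasDerivAt_id (u z)).div_const t).arctan).const_mul t).congr_deriv (by
      simp only [id]
      field_simp)
  exact (h1.comp_hasFDerivAt z hu.hasFDerivAt).fderiv

theorem holo_ext {c : ℝ} {u : ℂ → ℝ} {K : Set ℂ} (h : GM c u K) {x : ℂ} {r : ℝ} (hr : 0 < r)
    (hR : Rem K (ball x r)) :
    ∃ F : ℂ → ℂ, DifferentiableOn ℂ F (ball x (r / 2)) ∧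
      ∀ z ∈ ball x (r / 2) \ K, F z = dz u z := by
  have hK := h.closed
  have hO : IsOpen (ball x r \ K) := isOpen_ball.sdiff hK
  have hs : ball x r \ K ⊆ univ \ K := sdiff_subset_sdiff_left (subset_univ _)
  have hD : Dir u (ball x r \ K) < ∞ := by
    rw [(h.toAM0.upper_real hr (subset_univ _)).2.1]
    exact ENNReal.ofReal_lt_top
  have hdz : IntegrableOn (dz u) (ball x r \ K) :=
    Integrable.mono (intgr_Curl hD) (measurable_gr u).2.aestronglyMeasurable (Eventually.of_forall fun z => by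
      rw [(norm_dz u z).1, (norm_dz u z).2.1])
  have hsm := (smooth_of_holo hO (fun z hz => h.diff z (hs hz)) (h.holo.mono hs)).1
  refine weyl_off hK (by simpa using h.toAM0.vol) hr hdz (h.holo.mono hs).continuousOn
    fun φ h1 h2 h3 => ?_
  obtain ⟨⟨-, C1, b1⟩, c2, C2, b2⟩ := test_Curl h1 h2
  have hi := hdz.mul_bdd c2.aestronglyMeasurable (Eventually.of_forall b2)
  refine Complex.ext ?_ ?_
  · have a1 := h.outer0 (ψ := φ) h2 (fun z hz => (off_Curl hz).1)
      (h1.of_le (by simp)).locallyLipschitz.locallyLipschitzOn ⟨C1, b1⟩ (by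
        obtain ⟨C, hC⟩ := (h2.fderiv ℝ).exists_bound_of_continuous (h1.continuous_fderiv (by simp))
        refine (lintegral_mono_set (t := tsupport φ ∪ (tsupport φ)ᶜ) (by simp)).trans_lt
          ((lintegral_union_le _ _ _).trans_lt (ENNReal.add_lt_top.2 ⟨?_, ?_⟩))
        · refine setLIntegral_lt_top_of_le_nnreal h2.measure_lt_top.ne ⟨C.toNNReal ^ 2,
            fun z _ => ?_⟩
          rw [ENNReal.coe_pow, ← ofReal_norm]
          gcongr
          exact ENNReal.ofReal_le_ofReal (hC z)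
        · rw [setLIntegral_congr_fun (isClosed_tsupport φ).measurableSet.compl (g := fun _ => 0)
            fun z hz => by simp only [(off_Curl hz).2.1, en_Curl]]
          simp)
    rw [setIntegral_eq_of_subset_of_forall_sdiff_eq_zero hK.measurableSet.compl
      (s := ball x r \ K) (fun z hz => hz.2) fun z hz => by
        simp [(off_Curl fun hz' => hz.2 ⟨h3 hz', hz.1⟩).2.1]] at a1
    have e1 := integral_re hi
    rw [RCLike.re_to_complex] at e1
    rw [← e1, Complex.zero_re, ← a1]
    refine integral_congr_ae (Eventually.of_forall fun z => ?_)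
    show (dz u z * gr φ z).re = fderiv ℝ φ z (gr u z)
    rw [← inner_gr_eq, fderiv_eq_inner, real_inner_comm]
  · have e1 := integral_im hi
    rw [RCLike.im_to_complex] at e1
    rw [← e1, Complex.zero_im]
    have hp : ∀ n : ℕ, (0 : ℝ) < n + 1 := fun n => by positivity
    have g1 : ∀ s : ℝ, |1 / (1 + s ^ 2)| ≤ 1 := fun s => by
      rw [abs_of_pos (by positivity), div_le_one (by positivity)]
      nlinarith [sq_nonneg s]
    have a0 : ∀ n : ℕ, ∫ z in ball x r \ K,
        1 / (1 + (u z / (n + 1)) ^ 2) * (dz u z * gr φ z).im = 0 := fun n => by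
      rw [← curl_Curl hK hR (η := fun w => (n + 1) * Real.arctan (u w / (n + 1)))
        ((locLip_iff hO).2 fun z hz => ContDiffAt.exists_lipschitzOnWith (𝕂 := ℝ)
          (contDiffAt_const.mul (((hsm.contDiffAt (hO.mem_nhds hz)).of_le (by simp)).div_const
            _).arctan)) (M := (n + 1) * (Real.pi / 2)) (fun z _ => by
          rw [abs_mul, abs_of_pos (hp n)]
          exact mul_le_mul_of_nonneg_left (abs_le.2 ⟨(Real.neg_pi_div_two_lt_arctan _).le,
            (Real.arctan_lt_pi_div_two _).le⟩) (hp n).le)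
        ((setLIntegral_mono' hO.measurableSet fun z hz => by
          rw [trunc_Curl (h.diff z (hs hz)) (hp n)]
          gcongr
          rw [enorm_le_iff_norm_le, norm_smul]
          exact mul_le_of_le_one_left (norm_nonneg _) (g1 _)).trans_lt hD) h1 h2 h3]
      refine setIntegral_congr_fun hO.measurableSet fun z hz => ?_
      simp only [dz, trunc_Curl (h.diff z (hs hz)) (hp n)]
      generalize 1 / (1 + (u z / (n + 1)) ^ 2) = g
      simp
      ring
    have a1 := tendsto_integral_of_dominated_convergence (μ := volume.restrict (ball x r \ K))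
      (F := fun (n : ℕ) z => 1 / (1 + (u z / (n + 1)) ^ 2) * (dz u z * gr φ z).im)
      (f := fun z => (dz u z * gr φ z).im) (fun z => ‖(dz u z * gr φ z).im‖)
      (fun n => (ContinuousOn.aestronglyMeasurable (continuousOn_const.div (continuousOn_const.add
        ((hsm.continuousOn.div_const _).pow 2)) fun z _ =>
          (add_pos_of_pos_of_nonneg one_pos (sq_nonneg _)).ne') hO.measurableSet).mul
          hi.im.aestronglyMeasurable) hi.im.norm
      (fun n => Eventually.of_forall fun z => by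
        rw [norm_mul]
        exact mul_le_of_le_one_left (norm_nonneg _) (g1 _))
      (Eventually.of_forall fun z => by
        have t1 : Tendsto (fun n : ℕ => u z / ((n : ℝ) + 1)) atTop (𝓝 0) :=
          tendsto_const_nhds.div_atTop (tendsto_natCast_atTop_atTop.atTop_add tendsto_const_nhds)
        have t2 := ((tendsto_const_nhds (x := (1 : ℝ))).div ((t1.pow 2).const_add 1)
          (by norm_num)).mul_const
          (dz u z * gr φ z).im
        simpa using t2)
    simp only [a0] at a1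
    exact (tendsto_nhds_unique tendsto_const_nhds a1).symm

end Vale.Agent.P128.EARN
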