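import Vale.Agent.P128.EARN.Calc

/-! P128 EARN/CutA. Cutoff at infinity. Plan: zeta z = zeta0 (z / R) with a fixed bump zeta0
equal to one on ball 0 1; Q = - zeta g; |gr Q|^2 = inner (gr g) (gr (zeta^2 g)) + g^2 |gr zeta|^2
pointwise, green for the first term; the second term is at most sup of g^2 outside ball R times the
scale invariant integral of |gr zeta|^2. -/

namespace Vale.Agent.P128.EARN

open MeasureTheory Set Metric Filter Topology
open scoped ENNReal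

theorem gr_const_CutA {φ : ℂ → ℝ} {z : ℂ} {c : ℝ} (h : φ =ᶠ[𝓝 z] fun _ => c) : gr φ z = 0 := by
  rw [(gr_congr h).1]
  simp [gr]

theorem sq_supp_CutA {ζ : ℂ → ℝ} (h : ContDiff ℝ (⊤ : ℕ∞) ζ) (hc : HasCompactSupport ζ) :
    Continuous (fun z => ‖gr ζ z‖ ^ 2) ∧ HasCompactSupport fun z => ‖gr ζ z‖ ^ 2 := by
  refine ⟨(continuousOn_univ.1
    (contDiffOn_gr isOpen_univ h.contDiffOn).1.continuousOn).norm.pow 2,
    HasCompactSupport.intro hc fun z hz => ?_⟩
  rw [gr_const_CutA (notMem_tsupport_iff_eventuallyEq.1 hz), norm_zero, zero_pow two_ne_zero]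

theorem bump_CutA : ∃ I : ℝ, 0 ≤ I ∧ ∀ R : ℝ, 0 < R → ∃ ζ : ℂ → ℝ, ContDiff ℝ (⊤ : ℕ∞) ζ ∧
    HasCompactSupport ζ ∧ (∀ z ∈ ball (0 : ℂ) R, ζ z = 1) ∧ ∫ z, ‖gr ζ z‖ ^ 2 = I := by
  let b : ContDiffBump (0 : ℂ) := ⟨1, 2, one_pos, one_lt_two⟩
  have hb : ContDiff ℝ (⊤ : ℕ∞) b := b.contDiff
  refine ⟨∫ z, ‖gr b z‖ ^ 2, integral_nonneg fun _ => sq_nonneg _, fun R hR =>
    ⟨fun z => b (R⁻¹ • z), hb.comp (contDiff_const_smul _),
      b.hasCompactSupport.comp_smul (inv_ne_zero hR.ne'), fun z hz => ?_, ?_⟩⟩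
  · refine b.one_of_mem_closedBall ?_
    rw [mem_closedBall_zero_iff, norm_smul, norm_inv, Real.norm_of_nonneg hR.le]
    exact inv_mul_le_one_of_le₀ (mem_ball_zero_iff.1 hz).le hR.le
  · have e : ∀ z, gr (fun z => b (R⁻¹ • z)) z = R⁻¹ • gr b (R⁻¹ • z) := fun z => by
      have h := ((hb.differentiable (by simp) (R⁻¹ • z)).hasFDerivAt.comp z
        ((hasFDerivAt_id z).const_smul R⁻¹)).fderiv
      have h' : ∀ v, fderiv ℝ (fun z => b (R⁻¹ • z)) z v = R⁻¹ * fderiv ℝ b (R⁻¹ • z) v :=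
        fun v => (congrArg (· v) h).trans (map_smul (fderiv ℝ b (R⁻¹ • z)) R⁻¹ v)
      unfold gr
      rw [h', h', Complex.real_smul (x := R⁻¹) (z := _ + _)]
      push_cast
      ring
    simp only [e, norm_smul, mul_pow]
    rw [integral_const_mul, Measure.integral_comp_smul volume (fun z => ‖gr b z‖ ^ 2),
      Complex.finrank_real_complex, smul_eq_mul, Real.norm_eq_abs, sq_abs,
      abs_of_nonneg (by positivity), mul_inv_cancel_left₀ (by positivity)]

theorem pt_CutA {ζ g : ℂ → ℝ} (hζ : Differentiable ℝ ζ) (hg : Differentiable ℝ g) (z : ℂ) :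
    ‖gr (fun w => (-1 : ℝ) * (ζ w * g w)) z‖ ^ 2 =
      inner ℝ (gr (fun w => ζ w * (ζ w * g w)) z) (gr g z) + g z ^ 2 * ‖gr ζ z‖ ^ 2 := by
  rw [(gr_shift _ 0 z (-1)).2.2.2, (gr_add (hζ z) ((hζ z).fun_mul (hg z))).2.2.2.2,
    (gr_add (hζ z) (hg z)).2.2.2.2]
  simp only [Complex.sq_norm, Complex.normSq_apply, Complex.inner, Complex.mul_re, Complex.mul_im,
    Complex.add_re, Complex.add_im, Complex.ofReal_re, Complex.ofReal_im, Complex.conj_re,
    Complex.conj_im]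
  ring

theorem cutoff {g k : ℂ → ℝ} (hg : ContDiff ℝ (⊤ : ℕ∞) g) (hl : ∀ z, lap g z = k z)
    (hk : HasCompactSupport k) (h0 : Tendsto g (Bornology.cobounded ℂ) (𝓝 0)) (R₀ : ℝ) {δ : ℝ}
    (hδ : 0 < δ) : ∃ Q : ℂ → ℝ, ContDiff ℝ (⊤ : ℕ∞) Q ∧ HasCompactSupport Q ∧
      (∀ z ∈ ball (0 : ℂ) R₀, Q z = -g z) ∧ (∀ z ∈ tsupport k, Q z = -g z) ∧
      ∫ z, ‖gr Q z‖ ^ 2 ≤ -(∫ z, k z * g z) + δ := by
  obtain ⟨I, I0, hI⟩ := bump_CutA
  have h1 : ∀ᶠ z in Bornology.cobounded ℂ, z ∉ tsupport k ∧ g z ^ 2 < δ / (I + 1) := by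
    refine Eventually.and (Bornology.isBounded_def.1 hk.isCompact.isBounded) ?_
    exact (h0.pow 2).eventually_lt_const (by rw [zero_pow two_ne_zero]; positivity)
  obtain ⟨r, -, hr⟩ := (hasBasis_cobounded_compl_closedBall (0 : ℂ)).eventually_iff.1 h1
  have r1 : r < max (max r R₀) 0 + 1 :=
    ((le_max_left _ _).trans (le_max_left _ _)).trans_lt (lt_add_one _)
  have r2 : R₀ ≤ max (max r R₀) 0 + 1 :=
    ((le_max_right _ _).trans (le_max_left _ _)).trans (lt_add_one _).le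
  obtain ⟨ζ, z1, z2, z3, z4⟩ := hI _ ((le_max_right _ _).trans_lt (lt_add_one (max (max r R₀) 0)))
  generalize max (max r R₀) 0 + 1 = R at r1 r2 z3
  have hk1 : ∀ z ∈ tsupport k, ζ z = 1 := fun z hz => z3 z (closedBall_subset_ball r1 (by
    by_contra h
    exact (hr h).1 hz))
  refine ⟨fun w => (-1 : ℝ) * (ζ w * g w), contDiff_const.mul (z1.mul hg),
    z2.mul_right.mul_left, fun z hz => ?_, fun z hz => ?_, ?_⟩
  · beta_reduce
    rw [z3 z (ball_subset_ball r2 hz), one_mul, neg_one_mul]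
  · beta_reduce
    rw [hk1 z hz, one_mul, neg_one_mul]
  obtain ⟨g1, -, g2⟩ := green (φ := fun w => ζ w * (ζ w * g w)) (q := g)
    ((z1.mul (z1.mul hg)).of_le (by simp)) z2.mul_right isOpen_univ (subset_univ _)
    (hg.of_le (by norm_cast)).contDiffOn
  obtain ⟨c1, c2⟩ := sq_supp_CutA z1 z2
  have i1 : Integrable fun z => g z ^ 2 * ‖gr ζ z‖ ^ 2 :=
    ((hg.continuous.pow 2).mul c1).integrable_of_hasCompactSupport c2.mul_left
  have e : ∀ z, ζ z * (ζ z * g z) * lap g z = k z * g z := fun z => by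
    rw [hl]
    by_cases h : z ∈ tsupport k
    · rw [hk1 z h]; ring
    · rw [image_eq_zero_of_notMem_tsupport h, mul_zero, zero_mul]
  have a1 : ∫ z, g z ^ 2 * ‖gr ζ z‖ ^ 2 ≤ ∫ z, δ / (I + 1) * ‖gr ζ z‖ ^ 2 := by
    refine integral_mono i1 ((c1.integrable_of_hasCompactSupport c2).const_mul _) fun z => ?_
    by_cases h : z ∈ ball (0 : ℂ) R
    · have h2 : gr ζ z = 0 := gr_const_CutA (mem_of_superset (isOpen_ball.mem_nhds h) z3)
      simp [h2]
    · exact mul_le_mul_of_nonneg_right (hr fun h' => h (closedBall_subset_ball r1 h')).2.le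
        (sq_nonneg _)
  have a2 : δ / (I + 1) * I ≤ δ := by
    rw [div_mul_eq_mul_div, div_le_iff₀ (by positivity)]
    nlinarith
  simp only [pt_CutA (z1.differentiable (by simp)) (hg.differentiable (by simp)), e] at g2 ⊢
  rw [integral_const_mul, z4] at a1
  rw [integral_add g1 i1, g2]
  linarith

theorem Pot.diff {h p : ℂ → ℝ} (hp : Pot h p) (a : ℂ) :
    ContDiff ℝ (⊤ : ℕ∞) (fun z => p (z - a) - p z) ∧
    (∀ z, EARN.lap (fun z => p (z - a) - p z) z = h (z - a) - h z) ∧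
    Tendsto (fun z => p (z - a) - p z) (Bornology.cobounded ℂ) (𝓝 0) := by
  have h1 : ContDiff ℝ (⊤ : ℕ∞) fun z => p (z - a) :=
    hp.smooth.comp (contDiff_id.sub contDiff_const)
  refine ⟨h1.sub hp.smooth, fun z => ?_, ?_⟩
  · rw [(lap_add (h1.of_le (by norm_cast)).contDiffAt
      (hp.smooth.of_le (by norm_cast)).contDiffAt).2.1, (gr_shift p a z 0).2.2.1, hp.lap, hp.lap]
  · refine Metric.tendsto_nhds.2 fun ε hε => ?_
    have h2 := (Metric.tendsto_nhds.1 hp.decay) (ε / (‖a‖ + 1)) (by positivity)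
    obtain ⟨r, -, hr⟩ := (hasBasis_cobounded_compl_closedBall (0 : ℂ)).eventually_iff.1 h2
    filter_upwards [(hasBasis_cobounded_compl_closedBall (0 : ℂ)).mem_of_mem
      (i := r + ‖a‖) trivial] with z hz
    rw [mem_compl_iff, mem_closedBall_zero_iff, not_le] at hz
    have h3 := (convex_closedBall z ‖a‖).norm_image_sub_le_of_norm_fderiv_le (𝕜 := ℝ) (f := p)
      (C := ε / (‖a‖ + 1)) (fun w _ => hp.smooth.differentiable (by simp) w) (fun w hw => by
        rw [← dist_zero_right]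
        refine (hr fun h => ?_).le
        rw [mem_closedBall_zero_iff] at h
        rw [mem_closedBall_iff_norm'] at hw
        linarith [norm_sub_norm_le z w]) (mem_closedBall_self (norm_nonneg a))
      (y := z - a) (by simp)
    rw [sub_sub_cancel_left, norm_neg] at h3
    rw [dist_zero_right]
    refine h3.trans_lt ?_
    rw [div_mul_eq_mul_div, div_lt_iff₀ (by positivity)]
    nlinarith

end Vale.Agent.P128.EARN
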