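import Vale.Agent.P128.EARN.Basic

/-! P128 EARN/Green. Divergence of the two gradient fields. Plan: div_w: gr w = chi gr u + u gr chi
off K; GM.outer0 with psi = chi phi; the remaining terms live on tsupport (fderiv chi), use green
(or div of the smooth compactly supported field phi u gr chi, for instance green with factor
phi u xi, xi a bump equal to one near tsupport (fderiv chi) supported off K, and q = chi).
div_s: gr s = gr u - gr w almost everywhere and GM.outer0. Translation invariance for div_wa. -/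

namespace Vale.Agent.P128.EARN

open MeasureTheory Set Metric Filter Topology
open scoped ENNReal

variable {c : ℝ} {u : ℂ → ℝ} {K G K' U : Set ℂ} {χ : ℂ → ℝ} {a₀ : ℝ}

theorem reg_Green {ψ : ℂ → ℝ} (hψ : ContDiff ℝ 1 ψ) (hc : HasCompactSupport ψ) :
    Continuous (gr ψ) ∧ HasCompactSupport (gr ψ) := by
  have h1 : Continuous (fderiv ℝ ψ) := hψ.continuous_fderiv one_ne_zero
  refine ⟨?_, ?_⟩
  · unfold gr
    fun_prop
  · exact (hc.fderiv (𝕜 := ℝ)).comp_left
      (g := fun L : ℂ →L[ℝ] ℝ => ((L 1 : ℝ) : ℂ) + Complex.I * ((L Complex.I : ℝ) : ℂ)) (by simp)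

theorem int_Green {ψ : ℂ → ℝ} (hψ : ContDiff ℝ 1 ψ) (hc : HasCompactSupport ψ) {F : ℂ → ℂ}
    (hF : ∀ R : ℝ, MemLp F 2 (volume.restrict (closedBall 0 R))) :
    Integrable fun z => inner ℝ (gr ψ z) (F z) := by
  obtain ⟨h1, h2⟩ := reg_Green hψ hc
  obtain ⟨R, hR⟩ := h2.isCompact.isBounded.subset_closedBall 0
  obtain ⟨M, hM⟩ := h1.bounded_above_of_compact_support h2
  have : IsFiniteMeasure (volume.restrict (closedBall (0 : ℂ) R)) :=
    isFiniteMeasure_restrict.2 measure_closedBall_lt_top.ne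
  have h3 : Integrable F (volume.restrict (closedBall 0 R)) := (hF R).integrable (by norm_num)
  refine (integrableOn_iff_integrable_of_support_subset (s := closedBall 0 R) fun z hz => ?_).1 ?_
  · refine hR (subset_tsupport _ fun h0 => hz ?_)
    simp only [h0, inner_zero_left]
  · refine (h3.norm.const_mul M).mono' (h1.aestronglyMeasurable.inner h3.1)
      (.of_forall fun z => ?_)
    exact (norm_inner_le_norm _ _).trans (mul_le_mul_of_nonneg_right (hM z) (norm_nonneg _))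

theorem full_Green (h0 : volume K = 0) (f : ℂ → ℝ) : ∫ z in Kᶜ, f z = ∫ z, f z := by
  rw [Measure.restrict_eq_self_of_ae_mem (s := Kᶜ) (measure_eq_zero_iff_ae_notMem.1 h0)]

theorem outer_Green (h : GM c u K) (h0 : volume K = 0) {ψ : ℂ → ℝ} (hψ : ContDiff ℝ 1 ψ)
    (hc : HasCompactSupport ψ) : ∫ z, inner ℝ (gr ψ z) (gr u z) = 0 := by
  obtain ⟨h1, h2⟩ := reg_Green hψ hc
  have h3 := h.outer0 hc.isCompact (fun z hz => image_eq_zero_of_notMem_tsupport hz)
    hψ.locallyLipschitz.locallyLipschitzOn (hψ.continuous.bounded_above_of_compact_support hc)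
    ((dir_eq ψ Kᶜ).1.2 ((h1.memLp_of_hasCompactSupport h2).restrict _))
  rw [full_Green h0] at h3
  simpa only [fderiv_eq_inner] using h3

theorem cut_Green {T V : Set ℂ} (hT : IsCompact T) (hV : IsOpen V) (hTV : T ⊆ V)
    (hu : ContDiffOn ℝ 1 u V) :
    ∃ v : ℂ → ℝ, ContDiff ℝ 1 v ∧ HasCompactSupport v ∧ ∀ z ∈ T, v =ᶠ[𝓝 z] u := by
  obtain ⟨S, hS, h1, h2⟩ := exists_compact_between hT hV hTV
  obtain ⟨ξ, a1, a2, -⟩ := exists_contMDiffMap_one_nhds_of_subset_interior (n := 1)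
    (modelWithCornersSelf ℝ ℂ) hT.isClosed h1
  have a3 : ContDiff ℝ 1 ξ := ξ.contMDiff.contDiff
  refine ⟨fun z => ξ z * u z, contDiff_iff_contDiffAt.2 fun z => ?_,
    HasCompactSupport.intro hS fun z hz => by simp only [a2 z hz, zero_mul], fun z hz => ?_⟩
  · by_cases hz : z ∈ S
    · exact a3.contDiffAt.mul (hu.contDiffAt (hV.mem_nhds (h2 hz)))
    · refine (contDiffAt_const (c := (0 : ℝ))).congr_of_eventuallyEq ?_
      filter_upwards [hS.isClosed.isOpen_compl.mem_nhds hz] with w hw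
      simp only [a2 w hw, zero_mul]
  · filter_upwards [a1.filter_mono (nhds_le_nhdsSet hz)] with w hw
    simp only [hw, one_mul]

theorem off_Green {z : ℂ} (hz : z ∉ tsupport (fderiv ℝ χ)) : gr χ z = 0 ∧ lap χ z = 0 := by
  have h : fderiv ℝ χ =ᶠ[𝓝 z] 0 := notMem_tsupport_iff_eventuallyEq.1 hz
  have h1 : ∀ v : ℂ, fderiv ℝ (fun w => fderiv ℝ χ w v) z = 0 := fun v => by
    have h2 : (fun w => fderiv ℝ χ w v) =ᶠ[𝓝 z] fun _ => 0 := by
      filter_upwards [h] with w hw
      rw [hw]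
      rfl
    rw [h2.fderiv_eq, fderiv_fun_const]
    rfl
  refine ⟨?_, ?_⟩
  · simp [gr, h.eq_of_nhds]
  · simp [lap, h1]

theorem ofReal_Green (t : ℝ) (a : ℂ) : (t : ℂ) * a = t • a := Complex.real_smul.symm

theorem div_w (h : GM c u K) (hC : Cfg K G K' U χ a₀) {φ : ℂ → ℝ} (hφ : ContDiff ℝ 1 φ) :
    ∫ z, inner ℝ (gr (wf χ u) z) (gr φ z) = -∫ z, hf χ u z * φ z := by
  obtain ⟨-, -, -, hT, hTK, -⟩ := hC.sets
  obtain ⟨h0, -, -, hf1, hf2, -⟩ := pieces h hC
  have hK : IsOpen Kᶜ := h.closed.isOpen_compl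
  have hd : ∀ z ∈ Kᶜ, DifferentiableAt ℝ u z := fun z hz => h.diff z ⟨mem_univ z, hz⟩
  have hu : ContDiffOn ℝ 1 u Kᶜ :=
    (smooth_of_holo hK hd (by rw [compl_eq_univ_sdiff]; exact h.holo)).1.of_le (by simp)
  obtain ⟨v, v1, v2, v3⟩ := cut_Green hT hK hTK hu
  have hχ : ContDiff ℝ 1 χ := hC.smooth.of_le (by simp)
  have c1 : HasCompactSupport fun z => χ z * φ z := hC.supp.mul_right
  have c2 : HasCompactSupport fun z => φ z * v z := v2.mul_left
  have i1 := int_Green (hχ.mul hφ) c1 (pieces_L2 h hC).2.2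
  have e1 := outer_Green h h0 (hχ.mul hφ) c1
  obtain ⟨i2, i3, e2⟩ := green (q := χ) (hφ.mul v1) c2 isOpen_univ (subset_univ _)
    (hC.smooth.of_le (by norm_cast)).contDiffOn
  have i4 : Integrable fun z => hf χ u z * φ z :=
    (hf1.continuous.mul hφ.continuous).integrable_of_hasCompactSupport hf2.mul_right
  have key : ∀ᵐ z, inner ℝ (gr (wf χ u) z) (gr φ z) =
      inner ℝ (gr (fun z => χ z * φ z) z) (gr u z) + inner ℝ (gr (fun z => φ z * v z) z) (gr χ z) +
        φ z * v z * lap χ z - hf χ u z * φ z := by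
    filter_upwards [measure_eq_zero_iff_ae_notMem.1 h0] with z hz
    have dχ := hχ.differentiable one_ne_zero z
    have dφ := hφ.differentiable one_ne_zero z
    have g1 : gr (wf χ u) z = _ := (gr_add dχ (hd z hz)).2.2.2.2
    rw [g1, (gr_add dχ dφ).2.2.2.2, (gr_add dφ (v1.differentiable one_ne_zero z)).2.2.2.2, hf,
      fderiv_eq_inner]
    simp only [ofReal_Green, inner_add_left, real_inner_smul_left]
    rw [real_inner_comm (gr φ z) (gr u z), real_inner_comm (gr φ z) (gr χ z)]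
    by_cases hT : z ∈ tsupport (fderiv ℝ χ)
    · rw [(gr_congr (v3 z hT)).1, (v3 z hT).eq_of_nhds, real_inner_comm (gr χ z) (gr u z)]
      ring
    · simp only [(off_Green hT).1, (off_Green hT).2, inner_zero_left, inner_zero_right]
      ring
  have s1 := integral_sub ((i1.add i2).add i3) i4
  have s2 := integral_add (i1.add i2) i3
  simp only [Pi.add_apply] at s1 s2
  rw [integral_congr_ae key, s1, s2, integral_add i1 i2, e1, e2]
  ring

theorem div_wa (h : GM c u K) (hC : Cfg K G K' U χ a₀) {φ : ℂ → ℝ} (hφ : ContDiff ℝ 1 φ)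
    (a : ℂ) : ∫ z, inner ℝ (gr (wf χ u) (z - a)) (gr φ z) = -∫ z, hf χ u (z - a) * φ z := by
  have h1 := div_w h hC (φ := fun w => φ (w - -a)) (hφ.comp (contDiff_id.sub contDiff_const))
  rw [← integral_sub_right_eq_self _ a, ← integral_sub_right_eq_self (fun z => hf χ u z * _) a]
    at h1
  simp only [fun z => (gr_shift φ (-a) z 0).1] at h1
  simpa only [sub_neg_eq_add, sub_add_cancel] using h1

theorem div_s (h : GM c u K) (hC : Cfg K G K' U χ a₀) {φ : ℂ → ℝ} (hφ : ContDiff ℝ 1 φ)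
    (hc : HasCompactSupport φ) :
    ∫ z, inner ℝ (gr (sf χ u) z) (gr φ z) = ∫ z, hf χ u z * φ z := by
  obtain ⟨h0, -, -, -, -, -, -, -, -, hs, -⟩ := pieces h hC
  obtain ⟨l1, -, l3⟩ := pieces_L2 h hC
  have key : ∀ᵐ z, inner ℝ (gr (sf χ u) z) (gr φ z) =
      inner ℝ (gr φ z) (gr u z) - inner ℝ (gr φ z) (gr (wf χ u) z) := by
    filter_upwards [measure_eq_zero_iff_ae_notMem.1 h0] with z hz
    rw [← hs z hz, inner_add_right, real_inner_comm, add_sub_cancel_left]
  have e := div_w h hC hφ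
  simp only [real_inner_comm (gr φ _)] at e
  rw [integral_congr_ae key, integral_sub (int_Green hφ hc l3)
    (int_Green hφ hc fun R => l1.restrict _), outer_Green h h0 hφ hc, e, zero_sub, neg_neg]

theorem div_test (h : GM c u K) (hC : Cfg K G K' U χ a₀) {C : Set ℂ} (hCc : IsCompact C)
    (hd : Disjoint C (tsupport χ)) {ψ : ℂ → ℝ} (hψ : Test K' C ψ) :
    ∫ z, inner ℝ (gr (sf χ u) z) (gr ψ z) = 0 := by
  obtain ⟨h0, -, -, -, -, -, -, -, hs, -⟩ := pieces h hC
  have hK : Kᶜ ⊆ K'ᶜ := compl_subset_compl.2 (hC.union ▸ subset_union_right)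
  have h1 := h.outer0 hCc hψ.zero (hψ.lip.mono hK) hψ.bdd
    ((lintegral_mono_set hK).trans_lt hψ.fin)
  rw [full_Green h0] at h1
  rw [← h1]
  refine integral_congr_ae (.of_forall fun z => ?_)
  simp only [fderiv_eq_inner]
  by_cases hz : z ∈ C
  · rw [(hs z (disjoint_left.1 hd hz)).2.2, real_inner_comm]
  · have h2 : ψ =ᶠ[𝓝 z] fun _ => 0 := by
      filter_upwards [hCc.isClosed.isOpen_compl.mem_nhds hz] with w hw using hψ.zero w hw
    have h3 : gr ψ z = 0 := by
      rw [(gr_congr h2).1]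
      simp [gr]
    rw [h3, inner_zero_left, inner_zero_right]

end Vale.Agent.P128.EARN
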