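import Vale.Agent.P128.EARN.Expand
import Vale.Agent.P128.EARN.Green
import Vale.Agent.P128.EARN.CutA

/-! P128 EARN/Cut. The perturbed inequality. Plan: min_expand with
theta = Q + t psi (cutoff for g = p(. - a) - p, k = h(. - a) - h, ball R0 containing C and both
supports); div_wa, div_s give the integral of h_a g and of - h g; gr w (z - a) vanishes where gr psi
does not; div_test; |gr theta|^2 expands almost everywhere; gr Q = - gr g on C; let delta tend to 0. -/

namespace Vale.Agent.P128.EARN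

open MeasureTheory Set Metric Filter Topology
open scoped ENNReal

variable {c : ℝ} {u : ℂ → ℝ} {K G K' U : Set ℂ} {χ : ℂ → ℝ} {a₀ : ℝ}

theorem gr0_Cut {C : Set ℂ} (hC : IsClosed C) {ψ : ℂ → ℝ} (h0 : ∀ z, z ∉ C → ψ z = 0) (z : ℂ)
    (hz : z ∉ C) : gr ψ z = 0 := by
  have e : ψ =ᶠ[𝓝 z] fun _ => (0 : ℝ) := mem_of_superset (hC.isOpen_compl.mem_nhds hz) h0
  rw [(gr_congr e).1]
  simp [gr]

theorem int_Cut {F Y : ℂ → ℂ} (hF : ∀ R : ℝ, MemLp F 2 (volume.restrict (closedBall 0 R)))
    (hY : MemLp Y 2 volume) {C : Set ℂ} (hC : IsCompact C) (h0 : ∀ z, z ∉ C → Y z = 0) :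
    Integrable fun z => inner ℝ (F z) (Y z) := by
  obtain ⟨R, hR⟩ := hC.isBounded.subset_closedBall 0
  refine (integrableOn_iff_integrable_of_support_subset (s := closedBall 0 R) fun z hz => ?_).1
    (inner_Expand (hF R) (hY.restrict _))
  by_contra h1
  exact hz (by simp only [h0 z fun h2 => h1 (hR h2), inner_zero_right])

theorem min_pert (h : GM c u K) (hC : Cfg K G K' U χ a₀) {p : ℂ → ℝ} (hp : Pot (hf χ u) p)
    {a : ℂ} (ha : ‖a‖ ≤ a₀) {C : Set ℂ} (hCc : IsCompact C)
    (hd : Disjoint C (cthickening a₀ (tsupport χ))) {ψ : ℂ → ℝ} (hψ : Test K' C ψ) (t : ℝ) :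
    0 ≤ ech χ u p a - 2 * t * (∫ z, inner ℝ (gr p (z - a) - gr p z) (gr ψ z)) +
      t ^ 2 * ∫ z, ‖gr ψ z‖ ^ 2 := by
  obtain ⟨hv, -, -, s1, s2, -, -, -, hz, -⟩ := pieces h hC
  obtain ⟨-, l2, -⟩ := pieces_L2 h hC
  obtain ⟨g1, g2, g3⟩ := hp.diff a
  have s3 : HasCompactSupport fun z => hf χ u (z - a) :=
    s2.comp_homeomorph (Homeomorph.subRight a)
  have s4 : Continuous fun z => hf χ u (z - a) := s1.continuous.comp (continuous_sub_right a)
  obtain ⟨R, hR⟩ := ((hCc.union s2.isCompact).union s3.isCompact).isBounded.subset_ball 0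
  refine le_of_forall_pos_le_add fun δ hδ => ?_
  obtain ⟨Q, q1, q2, q3, -, q4⟩ := cutoff g1 g2 (s3.sub s2) g3 R hδ
  have q5 : ContDiff ℝ 1 Q := q1.of_le (by simp)
  have hv' : ∀ᵐ z, z ∈ K'ᶜ :=
    compl_mem_ae_iff.2 (measure_mono_null (hC.union ▸ subset_union_right) hv)
  have hK := hC.cK.isOpen_compl
  have m1 : MemLp (gr ψ) 2 volume := by
    have e := (dir_eq ψ K'ᶜ).1.1 hψ.fin
    rwa [Measure.restrict_eq_self_of_ae_mem hv'] at e
  have m2 : MemLp (gr Q) 2 volume :=
    (reg_Green q5 q2).1.memLp_of_hasCompactSupport (reg_Green q5 q2).2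
  have m3 : MemLp (fun z => t • gr ψ z) 2 volume := m1.const_smul t
  have z1 := gr0_Cut hCc.isClosed hψ.zero
  have e1 : ∀ᵐ z, gr (fun w => Q w + t * ψ w) z = gr Q z + t • gr ψ z := by
    have e := locLip_ae_diff hK hψ.lip
    rw [Measure.restrict_eq_self_of_ae_mem hv'] at e
    filter_upwards [e] with z k
    rw [(gr_add (q5.differentiable one_ne_zero z) (k.const_mul t)).1, (gr_shift ψ a z t).2.2.2,
      Complex.real_smul]
  obtain ⟨M, hM⟩ := hψ.bdd
  obtain ⟨M', hM'⟩ := q5.continuous.bounded_above_of_compact_support q2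
  have k := min_expand h hC a (θ := fun w => Q w + t * ψ w) (q2.isCompact.union hCc)
    ⟨fun z k => by
      rw [image_eq_zero_of_notMem_tsupport fun k' => k (Or.inl k'),
        hψ.zero z fun k' => k (Or.inr k'), mul_zero, add_zero],
    (locLip_iff hK).2 fun z k => ((locLip_iff hK).1 q5.locallyLipschitz.locallyLipschitzOn z k).add
      (((locLip_iff hK).1 hψ.lip z k).cmul t),
    ⟨M' + |t| * M, fun z => (abs_add_le _ _).trans (add_le_add (hM' z)
      ((abs_mul _ _).trans_le (mul_le_mul_of_nonneg_left (hM z) (abs_nonneg t))))⟩,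
    (dir_eq _ _).1.2 (((memLp_congr_ae e1).2 (m2.add m3)).restrict _)⟩
  have i1 : ∀ {f : ℂ → ℝ}, Continuous f → HasCompactSupport f →
      Integrable fun z => f z * (p (z - a) - p z) := fun k1 k2 =>
    (k1.mul g1.continuous).integrable_of_hasCompactSupport k2.mul_right
  have i2 : ∀ {f : ℂ → ℝ}, tsupport f ⊆ ball 0 R →
      ∫ z, f z * Q z = -∫ z, f z * (p (z - a) - p z) := fun {f} k1 => by
    rw [← integral_neg]
    refine integral_congr_ae (ae_of_all _ fun z => ?_)
    by_cases k2 : z ∈ tsupport f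
    · simp only [q3 z (k1 k2), mul_neg]
    · simp [image_eq_zero_of_notMem_tsupport k2]
  have k1 : ∫ z, inner ℝ (gr (wf χ u) (z - a)) (gr (fun w => Q w + t * ψ w) z) =
      ∫ z, hf χ u (z - a) * (p (z - a) - p z) := by
    rw [← neg_neg (∫ z, hf χ u (z - a) * (p (z - a) - p z)),
      ← i2 fun z k => hR (Or.inr k), ← div_wa h hC q5 a]
    refine integral_congr_ae (e1.mono fun z k => ?_)
    by_cases k2 : z ∈ C
    · have k3 : z - a ∉ tsupport χ := fun k3 => disjoint_left.1 hd k2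
        (mem_cthickening_of_dist_le _ _ _ _ k3 (by rwa [dist_self_sub_right]))
      simp only [(hz _ k3).2.1, inner_zero_left]
    · simp only [k, z1 z k2, smul_zero, add_zero]
  have k2 : ∫ z, inner ℝ (gr (sf χ u) z) (gr (fun w => Q w + t * ψ w) z) =
      -∫ z, hf χ u z * (p (z - a) - p z) := by
    rw [integral_congr_ae (e1.mono fun z k => by rw [k, inner_add_right, real_inner_smul_right]),
      integral_add (int_Cut l2 m2 (reg_Green q5 q2).2.isCompact
        fun z k => image_eq_zero_of_notMem_tsupport k) ((int_Cut l2 m1 hCc z1).const_mul t),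
      integral_const_mul, div_test h hC hCc (hd.mono_right (self_subset_cthickening _)) hψ,
      mul_zero, add_zero, div_s h hC q5 q2, i2 fun z k => hR (Or.inl (Or.inr k))]
  have k3 : ∫ z, inner ℝ (gr Q z) (t • gr ψ z) =
      -(t * ∫ z, inner ℝ (gr p (z - a) - gr p z) (gr ψ z)) := by
    rw [← integral_const_mul, ← integral_neg]
    refine integral_congr_ae (ae_of_all _ fun z => ?_)
    by_cases k2 : z ∈ C
    · have d := hp.smooth.differentiable (by simp)
      have e : Q =ᶠ[𝓝 z] fun w => p w - p (w - a) :=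
        mem_of_superset (isOpen_ball.mem_nhds (hR (Or.inl (Or.inl k2)))) fun w hw =>
          (q3 w hw).trans (neg_sub _ _)
      simp only [real_inner_smul_right]
      rw [(gr_congr e).1, (gr_add (d z) (ψ := fun w => p (w - a)) (by fun_prop)).2.1,
        (gr_shift p a z t).1, ← neg_sub, inner_neg_left, mul_neg]
    · simp [z1 z k2]
  have k4 : ∫ z, ‖gr (fun w => Q w + t * ψ w) z‖ ^ 2 = (∫ z, ‖gr Q z‖ ^ 2) -
      2 * t * (∫ z, inner ℝ (gr p (z - a) - gr p z) (gr ψ z)) + t ^ 2 * ∫ z, ‖gr ψ z‖ ^ 2 := by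
    rw [integral_congr_ae (e1.mono fun z k => by rw [k]), add_Expand m2 m3, k3]
    simp only [norm_smul, mul_pow, Real.norm_eq_abs, sq_abs, integral_const_mul]
    ring
  have k5 : ∫ z, (hf χ u (z - a) - hf χ u z) * (p (z - a) - p z) =
      (∫ z, hf χ u (z - a) * (p (z - a) - p z)) - ∫ z, hf χ u z * (p (z - a) - p z) := by
    rw [← integral_sub (i1 s4 s3) (i1 s1.continuous s2)]
    simp only [sub_mul]
  rw [k1, k2, k4] at k
  unfold ech
  linarith

end Vale.Agent.P128.EARN
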