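import Vale.Agent.P128.TA2.Main
import Vale.Agent.P128.TA3.Main

/-! P128 EARN/Defs. Definitions for the block EARN (no compact piece). -/

namespace Vale.Agent.P128.EARN

open MeasureTheory Set Metric Filter Topology
open scoped ENNReal

noncomputable section

/-- The Laplacian. -/
def lap (q : ℂ → ℝ) (z : ℂ) : ℝ :=
  fderiv ℝ (fun w => fderiv ℝ q w 1) z 1 +
    fderiv ℝ (fun w => fderiv ℝ q w Complex.I) z Complex.I

/-- Test functions of the outer variation, vanishing off `C`. -/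
structure Test (K C : Set ℂ) (ψ : ℂ → ℝ) : Prop where
  zero : ∀ z, z ∉ C → ψ z = 0
  lip : LocallyLipschitzOn Kᶜ ψ
  bdd : ∃ M, ∀ z, |ψ z| ≤ M
  fin : Dir ψ Kᶜ < ∞

/-- `K` splits into a compact piece `G` and a rest `K'` lying in the outer component `U` of the
complement of `G`; `χ` is a cutoff equal to one near the filled piece. -/
structure Cfg (K G K' U : Set ℂ) (χ : ℂ → ℝ) (a₀ : ℝ) : Prop where
  union : K = G ∪ K'
  cG : IsCompact G
  ne : G.Nonempty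
  cK : IsClosed K'
  oU : IsOpen U
  pU : IsPreconnected U
  cU : IsCompact Uᶜ
  GU : G ⊆ Uᶜ
  KU : K' ⊆ U
  hole : IsOpen (Gᶜ \ U)
  smooth : ContDiff ℝ (⊤ : ℕ∞) χ
  supp : HasCompactSupport χ
  one : ∀ z ∈ Uᶜ, ∀ᶠ w in 𝓝 z, χ w = 1
  apos : 0 < a₀
  far : Disjoint (cthickening (2 * a₀) (tsupport χ)) K'

/-- The part of `u` near `G`. -/
def wf (χ u : ℂ → ℝ) (z : ℂ) : ℝ := χ z * u z

/-- The part of `u` away from `G`. -/
def sf (χ u : ℂ → ℝ) (z : ℂ) : ℝ := (1 - χ z) * u z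

/-- The Laplacian of `wf` off `G`. -/
def hf (χ u : ℂ → ℝ) (z : ℂ) : ℝ := 2 * fderiv ℝ χ z (gr u z) + u z * lap χ z

/-- `p` solves the Poisson equation with gradient tending to zero. -/
structure Pot (h p : ℂ → ℝ) : Prop where
  smooth : ContDiff ℝ (⊤ : ℕ∞) p
  lap : ∀ z, lap p z = h z
  decay : Tendsto (fderiv ℝ p) (Bornology.cobounded ℂ) (𝓝 0)

/-- The energy change under translation of `G` by `a`. -/
def ech (χ u p : ℂ → ℝ) (a : ℂ) : ℝ :=
  2 * (∫ z, inner ℝ (gr (wf χ u) (z - a)) (gr (sf χ u) z)) -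
    2 * (∫ z, inner ℝ (gr (wf χ u) z) (gr (sf χ u) z)) +
    ∫ z, (hf χ u (z - a) - hf χ u z) * (p (z - a) - p z)

/-- `K` is removable in `B` for bounded functions of finite energy. -/
def Rem (K B : Set ℂ) : Prop :=
  ∀ η : ℂ → ℝ, LocallyLipschitzOn (B \ K) η → (∃ M, ∀ z ∈ B \ K, |η z| ≤ M) →
    Dir η (B \ K) < ∞ → ∀ φ : ℂ → ℝ, ContDiff ℝ (⊤ : ℕ∞) φ → HasCompactSupport φ →
      tsupport φ ⊆ B → ∫ z in B \ K, ((φ z : ℂ) * gr η z + (η z : ℂ) * gr φ z) = 0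

end

end Vale.Agent.P128.EARN
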