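import Vale.Agent.P128.EARN.Zero

/-! P128 EARN/Deg. The degenerate case. Plan: f = dz (w - p) is holomorphic on U, equals
- dz p off tsupport chi; its derivative vanishes near x, so on U (identity theorem), f is constant on
U and tends to zero, so w - p = b on U; P = s + p + b equals u on U minus K'. GM.outer0 with
psi = indicator U (chi P) and green with factor chi P give zero energy of P on U^c. Competitor
(P, K') in a large closed ball, Sep by sepfun: the length of G vanishes, against dens at a point of G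
(small ball missing K'). -/

namespace Vale.Agent.P128.EARN

open MeasureTheory Set Metric Filter Topology
open scoped ENNReal

variable {c : ℝ} {u : ℂ → ℝ} {K G K' U : Set ℂ} {χ : ℂ → ℝ} {a₀ : ℝ}

theorem deg_const (h : GM c u K) (hC : Cfg K G K' U χ a₀) {p : ℂ → ℝ} (hp : Pot (hf χ u) p)
    {x : ℂ} (hx : x ∈ K') (h0 : ∀ᶠ z in 𝓝 x, deriv (dz p) z = 0) :
    ∃ b : ℝ, ∀ z ∈ U, u z = sf χ u z + p z + b := by
  obtain ⟨-, -, hd, -⟩ := hC.sets
  obtain ⟨-, hw, -, -, -, -, -, -, -, -, hsum⟩ := pieces h hC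
  have hUG : U ⊆ Gᶜ := subset_compl_comm.1 hC.GU
  have hf := (holo_pieces h hC hp).2.1.mono hUG
  have e1 : ∀ z ∉ tsupport χ, dz (fun z => wf χ u z - p z) z = -dz p z := by
    intro z hz
    have e : (fun z => wf χ u z - p z) =ᶠ[𝓝 z] -p := by
      filter_upwards [notMem_tsupport_iff_eventuallyEq.1 hz] with w hw
      simp [wf, hw]
    rw [(gr_congr e).2.1]
    simp only [dz, fderiv_neg, neg_apply]
    push_cast
    ring
  have hx' : x ∉ tsupport χ := fun hx' => disjoint_left.1 hd hx' hx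
  have e2 : dz (fun z => wf χ u z - p z) =ᶠ[𝓝 x] -dz p := by
    filter_upwards [(isClosed_tsupport χ).isOpen_compl.mem_nhds hx'] with z hz using e1 z hz
  have e3 : deriv (dz fun z => wf χ u z - p z) =ᶠ[𝓝 x] 0 := by
    filter_upwards [e2.deriv, h0] with z h1 h2
    rw [h1, deriv.neg, h2, neg_zero, Pi.zero_apply]
  obtain ⟨a, ha⟩ := hC.oU.exists_is_const_of_deriv_eq_zero hC.pU hf
    ((hf.analyticOnNhd hC.oU).deriv.eqOn_zero_of_preconnected_of_eventuallyEq_zero hC.pU
      (hC.KU hx) e3)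
  have ha0 : a = 0 := by
    have t1 : Tendsto (fun z => ‖dz p z‖) (Bornology.cobounded ℂ) (𝓝 0) := by
      simp only [(norm_dz p _).1]
      exact tendsto_zero_iff_norm_tendsto_zero.1 hp.decay
    have t2 : (fun z => ‖dz p z‖) =ᶠ[Bornology.cobounded ℂ] fun _ => ‖a‖ := by
      filter_upwards [Bornology.isBounded_def.1 hC.cU.isBounded,
        Bornology.isBounded_def.1 hC.supp.isCompact.isBounded] with z h1 h2
      rw [← ha z (not_not.1 h1), e1 z h2, norm_neg]
    exact norm_eq_zero.1 (tendsto_nhds_unique tendsto_const_nhds (t1.congr' t2))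
  obtain ⟨b, hb⟩ := hC.oU.exists_is_const_of_fderiv_eq_zero (𝕜 := ℝ)
    (f := fun z => wf χ u z - p z) hC.pU
    (((hw.mono hUG).sub hp.smooth.contDiffOn).differentiableOn (by simp)) fun z hz => by
      rw [Pi.zero_apply, ← norm_eq_zero, ← (norm_dz _ z).1, ha z hz, ha0, norm_zero]
  exact ⟨b, fun z hz => by linarith [hb z hz, hsum z]⟩

theorem smooth_Deg (h : GM c u K) (hC : Cfg K G K' U χ a₀) {p : ℂ → ℝ} (hp : Pot (hf χ u) p)
    (b : ℝ) : ∀ z ∉ K', ContDiffAt ℝ (⊤ : ℕ∞) (fun z => sf χ u z + p z + b) z := fun _ hz =>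
  (((pieces h hC).2.2.1.contDiffAt (hC.cK.isOpen_compl.mem_nhds hz)).add
    hp.smooth.contDiffAt).add contDiffAt_const

theorem lap_Deg (h : GM c u K) (hC : Cfg K G K' U χ a₀) {p : ℂ → ℝ} (hp : Pot (hf χ u) p)
    (b : ℝ) : ∀ z ∉ K', lap (fun z => sf χ u z + p z + b) z = 0 := by
  intro z hz
  obtain ⟨-, -, hs, -, -, -, -, hl, -⟩ := pieces h hC
  have e : lap (fun z => sf χ u z + p z + b) z = lap (fun z => sf χ u z + p z) z := by
    simp only [lap, fderiv_add_const]
  rw [e, (lap_add ((hs.contDiffAt (hC.cK.isOpen_compl.mem_nhds hz)).of_le ENat.LEInfty.out)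
    (hp.smooth.contDiffAt.of_le ENat.LEInfty.out)).1, hl z hz, hp.lap, neg_add_cancel]

theorem deg_energy (h : GM c u K) (hC : Cfg K G K' U χ a₀) {p : ℂ → ℝ} (hp : Pot (hf χ u) p)
    {b : ℝ} (hb : ∀ z ∈ U, u z = sf χ u z + p z + b) :
    Dir (fun z => sf χ u z + p z + b) Uᶜ = 0 := by
  have hP := smooth_Deg h hC hp b
  have hL := lap_Deg h hC hp b
  set P : ℂ → ℝ := fun z => sf χ u z + p z + b
  obtain ⟨-, -, hd, -⟩ := hC.sets
  have hd' : tsupport χ ⊆ K'ᶜ := hd.subset_compl_right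
  have hQ : ContDiff ℝ (⊤ : ℕ∞) fun z => χ z * P z := by
    refine contDiff_iff_contDiffAt.2 fun z => ?_
    by_cases hz : z ∈ tsupport χ
    · exact hC.smooth.contDiffAt.mul (hP z (hd' hz))
    · refine contDiffAt_const.congr_of_eventuallyEq (f := fun _ => 0) ?_
      filter_upwards [notMem_tsupport_iff_eventuallyEq.1 hz] with w hw
      simp [hw]
  have hc : HasCompactSupport fun z => χ z * P z := hC.supp.mul_right
  obtain ⟨i1, -, e1⟩ := green (q := P) (hQ.of_le (by simp)) hc hC.cK.isOpen_compl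
    ((tsupport_mul_subset_left (f := χ) (g := P)).trans hd')
    fun z hz => ((hP z hz).of_le ENat.LEInfty.out).contDiffWithinAt
  have e2 : ∫ z, χ z * P z * lap P z = 0 := by
    refine integral_eq_zero_of_ae (ae_of_all _ fun z => ?_)
    by_cases hz : z ∈ K'
    · simp [image_eq_zero_of_notMem_tsupport fun hz' => hd' hz' hz]
    · simp [hL z hz]
  rw [e2, neg_zero] at e1
  set Q : ℂ → ℝ := fun z => χ z * P z
  have c1 : ∀ z ∈ U, U.indicator Q =ᶠ[𝓝 z] Q := fun z hz => by
    filter_upwards [hC.oU.mem_nhds hz] with w hw using indicator_of_mem hw _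
  have c2 : ∀ z ∉ K, z ∉ U → U.indicator Q =ᶠ[𝓝 z] fun _ => 0 := fun z hz hU => by
    have hG : z ∈ Gᶜ \ U := ⟨fun hG => hz (hC.union ▸ Or.inl hG), hU⟩
    filter_upwards [hC.hole.mem_nhds hG] with w hw using indicator_of_notMem hw.2 _
  have mK : MeasurableSet Kᶜ := h.closed.measurableSet.compl
  obtain ⟨M, hM⟩ := hQ.continuous.bounded_above_of_compact_support hc
  have o := h.outer0 (ψ := U.indicator Q) hC.supp.isCompact
    (fun z hz => by simp [Q, indicator, image_eq_zero_of_notMem_tsupport hz])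
    ((locLip_iff h.closed.isOpen_compl).2 fun z hz => by
      by_cases hU : z ∈ U
      · exact LipAt.congr (hQ.contDiffAt.of_le (m := 1) (by simp)).exists_lipschitzOnWith (c1 z hU)
      · exact (lipAt_const 0 z).congr (c2 z hz hU))
    ⟨M, fun z => (norm_indicator_le_norm_self Q z).trans (hM z)⟩
    (by
      have m : MemLp (fderiv ℝ Q) 2 volume :=
        (hQ.continuous_fderiv (by simp)).memLp_of_hasCompactSupport (hc.fderiv ℝ)
      have m2 : ∫⁻ z, ‖fderiv ℝ Q z‖ₑ ^ 2 < ∞ := by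
        have := lintegral_rpow_enorm_lt_top_of_eLpNorm_lt_top two_ne_zero ENNReal.ofNat_ne_top m.2
        simpa using this
      refine lt_of_le_of_lt ((setLIntegral_mono' mK fun z hz => ?_).trans
        (setLIntegral_le_lintegral _ _)) m2
      by_cases hU : z ∈ U
      · rw [(c1 z hU).fderiv_eq]
      · rw [(c2 z hz hU).fderiv_eq, fderiv_fun_const, Pi.zero_apply, ← ofReal_norm, norm_zero]
        simp)
  have e3 : ∫ z in Kᶜ, fderiv ℝ (U.indicator Q) z (gr u z) =
      ∫ z in U, inner ℝ (gr Q z) (gr P z) := by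
    have hK : ∀ᵐ z : ℂ, z ∈ Kᶜ := compl_mem_ae_iff.2 (pieces h hC).1
    rw [Measure.restrict_eq_self_of_ae_mem hK, ← integral_indicator hC.oU.measurableSet]
    refine integral_congr_ae (hK.mono fun z hz => ?_)
    by_cases hU : z ∈ U
    · have e : u =ᶠ[𝓝 z] P := by
        filter_upwards [hC.oU.mem_nhds hU] with w hw using hb w hw
      simp only [indicator_of_mem hU, (c1 z hU).fderiv_eq, fderiv_eq_inner, (gr_congr e).1]
    · simp [indicator_of_notMem hU, (c2 z hz hU).fderiv_eq]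
  have e4 := integral_add_compl hC.oU.measurableSet i1
  rw [← e3, o, zero_add, e1] at e4
  have e5 : ∀ z ∈ Uᶜ, inner ℝ (gr Q z) (gr P z) = ‖fderiv ℝ P z‖ ^ 2 := fun z hz => by
    have e : Q =ᶠ[𝓝 z] P := (hC.one z hz).mono fun w hw => by simp only [Q, hw, one_mul]
    rw [(gr_congr e).1, real_inner_self_eq_norm_sq, (norm_dz P z).2.1]
  have mU := hC.oU.measurableSet.compl
  rw [setIntegral_congr_fun mU e5] at e4
  have e6 := ofReal_integral_eq_lintegral_ofReal (i1.integrableOn.congr_fun e5 mU)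
    (ae_of_all _ fun z => sq_nonneg _)
  rw [e4, ENNReal.ofReal_zero] at e6
  simp only [Dir, ← ofReal_norm, ← ENNReal.ofReal_pow (norm_nonneg _)]
  exact e6.symm

theorem deg (h : GM c u K) (hC : Cfg K G K' U χ a₀) {p : ℂ → ℝ} (hp : Pot (hf χ u) p)
    {x : ℂ} (hx : x ∈ K') (h0 : ∀ᶠ z in 𝓝 x, deriv (dz p) z = 0) : False := by
  obtain ⟨b, hb⟩ := deg_const h hC hp hx h0
  have hE := deg_energy h hC hp hb
  have hP := smooth_Deg h hC hp b
  set P : ℂ → ℝ := fun z => sf χ u z + p z + b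
  obtain ⟨hGK, hUχ, -⟩ := hC.sets
  obtain ⟨R, hR, hχ⟩ := hC.supp.isCompact.isBounded.subset_closedBall_lt 0 0
  have hG : G ⊆ closedBall 0 R := hC.GU.trans (hUχ.trans hχ)
  have hc : Comp univ True u K 0 R P K' :=
    { closed := hC.cK
      eqL := by rw [hC.union, union_sdiff_distrib, sdiff_eq_empty.2 hG, empty_union]
      eqw := fun z _ hz => (hb z (not_not.1 fun hU => hz (hχ (hUχ hU)))).symm
      lip := (locLip_iff (isOpen_univ.sdiff hC.cK)).2 fun z hz =>
        ((hP z hz.2).of_le (m := 1) (by simp)).exists_lipschitzOnWith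
      sep := fun _ κ hκ => by
        obtain ⟨κ', h1, h2⟩ := sepfun h.closed hC hχ hκ
        exact ⟨κ', h1, fun z _ hz => h2 z hz⟩ }
  have hm := h.min 0 R P K' hR (subset_univ _) hc
  have hu := h.toAM0.upper (y := 0) hR (subset_univ _)
  have h1 : Dir P (closedBall 0 R \ K') ≤ Dir u (closedBall 0 R \ K) := by
    have s1 : closedBall 0 R \ K' ⊆ Uᶜ ∪ (closedBall 0 R \ K) ∩ U := fun z hz => by
      by_cases hU : z ∈ U
      · refine Or.inr ⟨⟨hz.1, fun hK => ?_⟩, hU⟩
        rw [hC.union] at hK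
        exact hK.elim (fun hG => hC.GU hG hU) hz.2
      · exact Or.inl hU
    refine ((lintegral_mono_set s1).trans (lintegral_union_le _ _ _)).trans ?_
    rw [show ∫⁻ z in Uᶜ, ‖fderiv ℝ P z‖ₑ ^ 2 = 0 from hE, zero_add]
    refine le_trans (setLIntegral_mono' ((measurableSet_closedBall.diff
      h.closed.measurableSet).inter hC.oU.measurableSet) fun z hz => ?_)
      (lintegral_mono_set inter_subset_left)
    have e : u =ᶠ[𝓝 z] P := by
      filter_upwards [hC.oU.mem_nhds hz.2] with w hw using hb w hw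
    rw [e.fderiv_eq]
  have h2 : μH[1] (K ∩ closedBall 0 R) = μH[1] (K' ∩ closedBall 0 R) + μH[1] G := by
    rw [hC.union, union_inter_distrib_right, inter_eq_left.2 hG, union_comm,
      measure_union (hGK.symm.mono_left inter_subset_left) hC.cG.measurableSet]
  simp only [En, zero_mul, ENNReal.ofReal_zero, add_zero, h2, ← add_assoc] at hm hu
  have h3 : μH[1] G = 0 := by
    have hfin := (le_self_add.trans_lt (hu.trans_lt ENNReal.ofReal_lt_top)).ne
    have h4 := hm.trans (add_le_add h1 le_rfl)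
    exact nonpos_iff_eq_zero.1 ((ENNReal.add_le_add_iff_left hfin).1 (by rwa [add_zero]))
  obtain ⟨y, hy⟩ := hC.ne
  obtain ⟨r, hr, hs⟩ := Metric.isOpen_iff.1 hC.cK.isOpen_compl y (disjoint_left.1 hGK hy)
  have h5 := h.dens y (hC.union ▸ Or.inl hy) r hr (subset_univ _)
  have h6 : K ∩ ball y r ⊆ G := fun z hz => (hC.union ▸ hz.1 : z ∈ G ∪ K').resolve_right (hs hz.2)
  have h7 := ENNReal.ofReal_eq_zero.1
    (nonpos_iff_eq_zero.1 (h5.trans ((measure_mono h6).trans h3.le)))
  exact absurd h7 (not_le.2 (mul_pos h.cpos hr))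

end Vale.Agent.P128.EARN
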