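import Vale.Agent.P128.EARN.Min

/-! P128 EARN/Expand. Expansion of the squares. Plan: abstract lemma for square integrable
fields on the ball, then remove the ball because the fields vanish outside (gr theta vanishes off
the compact set C), translation invariance of the integral of the squared norm. -/

namespace Vale.Agent.P128.EARN

open MeasureTheory Set Metric Filter Topology
open scoped ENNReal

variable {c : ℝ} {u : ℂ → ℝ} {K G K' U : Set ℂ} {χ : ℂ → ℝ} {a₀ : ℝ}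

theorem sq_Expand {μ : Measure ℂ} {f : ℂ → ℂ} (hf : MemLp f 2 μ) :
    Integrable (fun z => ‖f z‖ ^ 2) μ :=
  (memLp_two_iff_integrable_sq_norm hf.aestronglyMeasurable).1 hf

theorem inner_Expand {μ : Measure ℂ} {f g : ℂ → ℂ} (hf : MemLp f 2 μ) (hg : MemLp g 2 μ) :
    Integrable (fun z => inner ℝ (f z) (g z)) μ := by
  refine ((sq_Expand hf).add (sq_Expand hg)).mono'
    (hf.aestronglyMeasurable.inner hg.aestronglyMeasurable) (Eventually.of_forall fun z => ?_)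
  refine (norm_inner_le_norm _ _).trans ?_
  have h1 := norm_nonneg (f z)
  have h2 := norm_nonneg (g z)
  simp only [Pi.add_apply]
  nlinarith [sq_nonneg (‖f z‖ - ‖g z‖), mul_nonneg h1 h2]

theorem add_Expand {μ : Measure ℂ} {f g : ℂ → ℂ} (hf : MemLp f 2 μ) (hg : MemLp g 2 μ) :
    ∫ z, ‖f z + g z‖ ^ 2 ∂μ =
      ∫ z, ‖f z‖ ^ 2 ∂μ + 2 * ∫ z, inner ℝ (f z) (g z) ∂μ + ∫ z, ‖g z‖ ^ 2 ∂μ := by
  simp only [norm_add_sq_real]
  rw [integral_add ((sq_Expand hf).fun_add ((inner_Expand hf hg).const_mul 2)) (sq_Expand hg),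
    integral_add (sq_Expand hf) ((inner_Expand hf hg).const_mul 2), integral_const_mul]

theorem abs_Expand {μ : Measure ℂ} {f f' s t : ℂ → ℂ} (hf : MemLp f 2 μ) (hf' : MemLp f' 2 μ)
    (hs : MemLp s 2 μ) (ht : MemLp t 2 μ) (e : ∫ z, ‖f' z‖ ^ 2 ∂μ = ∫ z, ‖f z‖ ^ 2 ∂μ)
    (h : ∫ z, ‖f z + s z‖ ^ 2 ∂μ ≤ ∫ z, ‖f' z + s z + t z‖ ^ 2 ∂μ) :
    0 ≤ 2 * (∫ z, inner ℝ (f' z) (s z) ∂μ) - 2 * (∫ z, inner ℝ (f z) (s z) ∂μ) +
      2 * (∫ z, inner ℝ (f' z) (t z) ∂μ) + 2 * (∫ z, inner ℝ (s z) (t z) ∂μ) +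
      ∫ z, ‖t z‖ ^ 2 ∂μ := by
  have h1 := add_Expand (f := fun z => f' z + s z) (hf'.add hs) ht
  simp only [inner_add_left] at h1
  rw [integral_add (inner_Expand hf' ht) (inner_Expand hs ht), add_Expand hf' hs] at h1
  rw [h1, add_Expand hf hs] at h
  linarith

theorem min_expand (h : GM c u K) (hC : Cfg K G K' U χ a₀) (a : ℂ) {θ : ℂ → ℝ} {C : Set ℂ}
    (hCc : IsCompact C) (hθ : Test K' C θ) :
    0 ≤ 2 * (∫ z, inner ℝ (gr (wf χ u) (z - a)) (gr (sf χ u) z)) -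
      2 * (∫ z, inner ℝ (gr (wf χ u) z) (gr (sf χ u) z)) +
      2 * (∫ z, inner ℝ (gr (wf χ u) (z - a)) (gr θ z)) +
      2 * (∫ z, inner ℝ (gr (sf χ u) z) (gr θ z)) + ∫ z, ‖gr θ z‖ ^ 2 := by
  obtain ⟨R, hR, hsub⟩ := ((hCc.union hC.supp.isCompact).union
    (hC.supp.isCompact.image (continuous_add_const a))).isBounded.subset_closedBall_lt 0 (0 : ℂ)
  have hCR : C ⊆ closedBall 0 R := fun z hz => hsub (Or.inl (Or.inl hz))
  have h1 : tsupport χ ⊆ closedBall 0 R := fun z hz => hsub (Or.inl (Or.inr hz))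
  have h2 : ∀ z ∈ tsupport χ, z + a ∈ closedBall (0 : ℂ) R := fun z hz =>
    hsub (Or.inr ⟨z, hz, rfl⟩)
  have hm := min_ball h hC a hθ hR hCR h1 h2
  obtain ⟨hv, -, -, -, -, -, -, -, hz, -⟩ := pieces h hC
  obtain ⟨l1, l2, -⟩ := pieces_L2 h hC
  have l3 : MemLp (fun z => gr (wf χ u) (z - a)) 2 volume :=
    l1.comp_measurePreserving (measurePreserving_sub_right volume a)
  have hv' : volume K' = 0 := measure_mono_null (hC.union ▸ subset_union_right) hv
  have l4 : MemLp (gr θ) 2 volume := by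
    have e := (dir_eq θ K'ᶜ).1.1 hθ.fin
    rwa [Measure.restrict_eq_self_of_ae_mem (s := K'ᶜ) (compl_mem_ae_iff.2 hv')] at e
  have z1 : ∀ z, z ∉ closedBall (0 : ℂ) R → gr (wf χ u) z = 0 := fun z hz' =>
    (hz z fun h' => hz' (h1 h')).2.1
  have z2 : ∀ z, z ∉ closedBall (0 : ℂ) R → gr (wf χ u) (z - a) = 0 := fun z hz' =>
    (hz (z - a) fun h' => hz' (by simpa using h2 _ h')).2.1
  have z3 : ∀ z, z ∉ closedBall (0 : ℂ) R → gr θ z = 0 := fun z hz' => by
    have e : θ =ᶠ[𝓝 z] fun _ => (0 : ℝ) := by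
      filter_upwards [isClosed_closedBall.isOpen_compl.mem_nhds hz'] with w hw
      exact hθ.zero w fun h' => hw (hCR h')
    rw [(gr_congr e).1]
    simp [gr]
  have e0 : ∫ z in closedBall (0 : ℂ) R, ‖gr (wf χ u) (z - a)‖ ^ 2 =
      ∫ z in closedBall (0 : ℂ) R, ‖gr (wf χ u) z‖ ^ 2 := by
    rw [setIntegral_eq_integral_of_forall_compl_eq_zero fun z hz' => by simp [z2 z hz'],
      setIntegral_eq_integral_of_forall_compl_eq_zero fun z hz' => by simp [z1 z hz']]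
    exact integral_sub_right_eq_self (fun z => ‖gr (wf χ u) z‖ ^ 2) a
  have key := abs_Expand (l1.restrict _) (l3.restrict _) (l2 R) (l4.restrict _) e0 hm
  rwa [setIntegral_eq_integral_of_forall_compl_eq_zero fun z hz' => by simp [z2 z hz'],
    setIntegral_eq_integral_of_forall_compl_eq_zero fun z hz' => by simp [z1 z hz'],
    setIntegral_eq_integral_of_forall_compl_eq_zero fun z hz' => by simp [z2 z hz'],
    setIntegral_eq_integral_of_forall_compl_eq_zero fun z hz' => by simp [z3 z hz'],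
    setIntegral_eq_integral_of_forall_compl_eq_zero fun z hz' => by simp [z3 z hz']] at key

end Vale.Agent.P128.EARN
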