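import Vale.Agent.P128.EARN.Defs

/-! P128 EARN/Hol. Holomorphic dependence on the translation. Plan:
hasDerivAt_integral_of_dominated_loc_of_deriv_le with the bound of deriv f on the compact set
cthickening b C; min_re: maximum modulus for exp (- F) (Complex.norm_eventually_eq_of_isLocalMax);
deriv_zero: derivative of the real part along a and i a. -/

namespace Vale.Agent.P128.EARN

open MeasureTheory Set Metric Filter Topology
open scoped ENNReal

theorem hol_shift {f X : ℂ → ℂ} {W C : Set ℂ} (hW : IsOpen W) (hf : DifferentiableOn ℂ f W)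
    (hC : IsCompact C) {b : ℝ} (hb : 0 < b) (hCW : cthickening b C ⊆ W) (hX : Integrable X)
    (h0 : ∀ z ∉ C, X z = 0) (hm : Measurable f) {a : ℂ} (ha : a ∈ ball (0 : ℂ) b) :
    Integrable (fun z => f (z + a) * X z) ∧
      HasDerivAt (fun a => ∫ z, f (z + a) * X z) (∫ z, deriv f (z + a) * X z) a := by
  have hT := hC.cthickening (r := b)
  have hd := hf.deriv hW
  obtain ⟨M, hM⟩ := hT.exists_bound_of_continuousOn (hf.continuousOn.mono hCW)
  obtain ⟨M', hM'⟩ := hT.exists_bound_of_continuousOn (hd.continuousOn.mono hCW)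
  have k : ∀ z ∈ C, ∀ a ∈ ball (0 : ℂ) b, z + a ∈ cthickening b C := fun z hz a ha =>
    mem_cthickening_of_dist_le _ z _ _ hz (by
      rw [dist_self_add_left]
      exact (mem_ball_zero_iff.1 ha).le)
  have k1 : ∀ {g : ℂ → ℂ} {N : ℝ}, (∀ x ∈ cthickening b C, ‖g x‖ ≤ N) → ∀ z,
      ∀ a ∈ ball (0 : ℂ) b, ‖g (z + a) * X z‖ ≤ N * ‖X z‖ := fun hg z a ha => by
    by_cases hz : z ∈ C
    · rw [norm_mul]
      exact mul_le_mul_of_nonneg_right (hg _ (k z hz a ha)) (norm_nonneg _)
    · simp [h0 z hz]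
  have k2 : ∀ {g : ℂ → ℂ}, Measurable g → ∀ a,
      AEStronglyMeasurable (fun z => g (z + a) * X z) volume := fun hg a =>
    (hg.comp (measurable_add_const a)).aestronglyMeasurable.mul hX.1
  have k3 : Integrable fun z => f (z + a) * X z :=
    (hX.norm.const_mul M).mono' (k2 hm a) (ae_of_all _ fun z => k1 hM z a ha)
  refine ⟨k3, (hasDerivAt_integral_of_dominated_loc_of_deriv_le
    (F := fun a z => f (z + a) * X z) (F' := fun a z => deriv f (z + a) * X z)
    (isOpen_ball.mem_nhds ha) (Eventually.of_forall (k2 hm)) k3 (k2 (measurable_deriv f) a)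
    (ae_of_all _ (k1 hM')) (hX.norm.const_mul M') (ae_of_all _ fun z a ha => ?_)).2⟩
  by_cases hz : z ∈ C
  · exact ((hf.differentiableAt (hW.mem_nhds (hCW (k z hz a ha)))).hasDerivAt.comp_const_add
      z a).mul_const _
  · simpa [h0 z hz] using hasDerivAt_const a (0 : ℂ)

theorem min_re {F : ℂ → ℂ} {b : ℝ} (hb : 0 < b) (hF : DifferentiableOn ℂ F (ball 0 b))
    (h : ∀ a ∈ ball (0 : ℂ) b, (F 0).re ≤ (F a).re) :
    ∀ᶠ a in 𝓝 (0 : ℂ), (F a).re = (F 0).re := by
  have h0 := ball_mem_nhds (0 : ℂ) hb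
  have h1 := Complex.norm_eventually_eq_of_isLocalMax (f := fun a => Complex.exp (-F a)) (c := 0)
    ((hF.eventually_differentiableAt h0).mono fun a ha => ha.neg.cexp)
    (mem_of_superset h0 fun a ha => by
      simpa [Complex.norm_exp] using h a ha)
  exact h1.mono fun a ha => by simpa [Complex.norm_exp] using ha

theorem deriv_zero {F : ℂ → ℂ} {F' : ℂ} (hF : HasDerivAt F F' 0)
    (h : ∀ᶠ a in 𝓝 (0 : ℂ), (F a).re = (F 0).re) : F' = 0 := by
  have h1 := (Complex.reCLM.hasFDerivAt.comp (0 : ℂ) (hF.hasFDerivAt.restrictScalars ℝ)).unique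
    ((hasFDerivAt_const (F 0).re (0 : ℂ)).congr_of_eventuallyEq h)
  have h2 := DFunLike.congr_fun h1 1
  have h3 := DFunLike.congr_fun h1 Complex.I
  exact Complex.ext (by simpa using h2) (by simpa using h3)

end Vale.Agent.P128.EARN
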