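import Vale.Agent.P128.EARN.Zero

/-! P128 EARN/Key. The key identity. Plan: for small a, ech a = 0 and min_pert for all t give
int inner (gr p (z - a) - gr p z) (gr psi z) = 0, that is re J (-a) = re J 0 for
J a = int dz p (z + a) * gr psi z (hol_shift with W the complement of tsupport chi, b = a0 / 2; gr psi
is integrable and vanishes off C); deriv_zero. -/

namespace Vale.Agent.P128.EARN

open MeasureTheory Set Metric Filter Topology
open scoped ENNReal

variable {c : ℝ} {u : ℂ → ℝ} {K G K' U : Set ℂ} {χ : ℂ → ℝ} {a₀ : ℝ}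

theorem quad_Key {I B : ℝ} (h : ∀ t : ℝ, 0 ≤ 0 - 2 * t * I + t ^ 2 * B) : I = 0 := by
  have hs : 0 < |B| + 1 := by positivity
  obtain ⟨t, rfl⟩ : ∃ t, I = t * (|B| + 1) := ⟨I / (|B| + 1), by field_simp⟩
  have h1 := h t
  have h2 : t ^ 2 * B ≤ t ^ 2 * |B| := mul_le_mul_of_nonneg_left (le_abs_self B) (sq_nonneg t)
  have h3 : 0 ≤ t ^ 2 * |B| := by positivity
  have h4 : t ^ 2 = 0 := le_antisymm (by nlinarith) (sq_nonneg t)
  rw [pow_eq_zero_iff two_ne_zero] at h4
  rw [h4, zero_mul]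

theorem off_Key {C : Set ℂ} (hCc : IsCompact C) {ψ : ℂ → ℝ} (hψ : Test K' C ψ) (z : ℂ)
    (hz : z ∉ C) : gr ψ z = 0 := by
  have h1 : ψ =ᶠ[𝓝 z] fun _ => 0 := by
    filter_upwards [hCc.isClosed.isOpen_compl.mem_nhds hz] with w hw
    exact hψ.zero w hw
  rw [(gr_congr h1).1]
  simp [gr]

theorem int_Key (h0 : volume K' = 0) {C : Set ℂ} (hCc : IsCompact C) {ψ : ℂ → ℝ}
    (hψ : Test K' C ψ) : Integrable (gr ψ) := by
  have h1 := (dir_eq ψ K'ᶜ).1.1 hψ.fin
  rw [Measure.restrict_eq_self_of_ae_mem (s := K'ᶜ) (compl_mem_ae_iff.2 h0)] at h1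
  have : IsFiniteMeasure (volume.restrict C) := isFiniteMeasure_restrict.2 hCc.measure_lt_top.ne
  have h2 : IntegrableOn (gr ψ) C := (h1.restrict C).integrable (by norm_num)
  exact h2.integrable_of_forall_notMem_eq_zero (off_Key hCc hψ)

theorem key (h : GM c u K) (hC : Cfg K G K' U χ a₀) {p : ℂ → ℝ} (hp : Pot (hf χ u) p)
    {C : Set ℂ} (hCc : IsCompact C) (hd : Disjoint C (cthickening a₀ (tsupport χ)))
    {ψ : ℂ → ℝ} (hψ : Test K' C ψ) : ∫ z, deriv (dz p) z * gr ψ z = 0 := by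
  have ha₀ := hC.apos
  have hK : volume K' = 0 :=
    measure_mono_null (hC.union ▸ subset_union_right) (pieces h hC).1
  have hW : cthickening (a₀ / 2) C ⊆ (tsupport χ)ᶜ := fun z hz hz' => by
    obtain ⟨w, hw, h1⟩ := mem_thickening_iff.1
      (cthickening_subset_thickening' ha₀ (half_lt_self ha₀) C hz)
    exact disjoint_left.1 hd hw
      (mem_cthickening_of_dist_le w z a₀ _ hz' (by rw [dist_comm]; exact h1.le))
  have H := fun (a : ℂ) (ha : a ∈ ball (0 : ℂ) (a₀ / 2)) =>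
    hol_shift (isClosed_tsupport χ).isOpen_compl (holo_pieces h hC hp).2.2 hCc (half_pos ha₀) hW
      (int_Key hK hCc hψ) (off_Key hCc hψ) (measurable_gr p).2 ha
  have m0 : (0 : ℂ) ∈ ball (0 : ℂ) (a₀ / 2) := mem_ball_self (half_pos ha₀)
  have h1 := deriv_zero (H 0 m0).2 ?_
  · simpa using h1
  have hn : Tendsto (fun a : ℂ => -a) (𝓝 0) (𝓝 0) := by
    simpa using (continuous_neg (G := ℂ)).tendsto 0
  filter_upwards [hn.eventually (ech_zero h hC hp), ball_mem_nhds (0 : ℂ) (half_pos ha₀)]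
    with a h2 h3
  have h4 : ‖-a‖ ≤ a₀ := by
    rw [norm_neg]
    linarith [mem_ball_zero_iff.1 h3]
  have h5 := quad_Key fun t => h2 ▸ min_pert h hC hp h4 hCc hd hψ t
  have h6 : ∀ z, inner ℝ (gr p (z - -a) - gr p z) (gr ψ z) =
      (dz p (z + a) * gr ψ z - dz p (z + 0) * gr ψ z).re := fun z => by
    rw [inner_sub_left, inner_gr_eq, inner_gr_eq, sub_neg_eq_add, add_zero, Complex.sub_re]
  simp only [h6] at h5
  have h7 := integral_re ((H a h3).1.sub (H 0 m0).1)
  rw [integral_sub' (H a h3).1 (H 0 m0).1] at h7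
  have h8 := h5.symm.trans h7
  rw [RCLike.re_to_complex, Complex.sub_re] at h8
  linarith

end Vale.Agent.P128.EARN
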