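import Vale.Agent.P128.EARN.Curl

/-! P128 EARN/Kill. A removable piece contradicts minimality. Plan: F from holo_ext, primitive
Phi on ball x (r/2) (DifferentiableOn.isExactOn_ball), u - re Phi is locally constant off K, so
constant b on ball x (r/4) minus K (Rem.mono, lc_const); competitor w = re Phi + b on ball x (r/4),
u elsewhere, L = K minus ball x (r/8), in closedBall x (r/8); Sep by lc_const; equal Dirichlet
energies (K null), so K has zero length in ball x (r/8), against dens. -/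

namespace Vale.Agent.P128.EARN

open MeasureTheory Set Metric Filter Topology
open scoped ENNReal

open Classical in
theorem glue_Kill {K : Set ℂ} (hK : IsClosed K) {x : ℂ} {ρ : ℝ} {f g : ℂ → ℝ}
    (h : ∀ z ∈ ball x ρ \ K, f z = g z) : ∃ w : ℂ → ℝ, (∀ z ∉ K, w =ᶠ[𝓝 z] f) ∧
      ∀ z ∈ ball x ρ, w =ᶠ[𝓝 z] g := by
  refine ⟨fun z => if z ∈ ball x ρ then g z else f z, fun z hz => ?_, fun z hz => ?_⟩
  · filter_upwards [hK.isOpen_compl.mem_nhds hz] with y hy
    by_cases h1 : y ∈ ball x ρ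
    · rw [if_pos h1, h y ⟨h1, hy⟩]
    · rw [if_neg h1]
  · filter_upwards [isOpen_ball.mem_nhds hz] with y hy
    rw [if_pos hy]

theorem smooth_Kill {c : ℝ} {u : ℂ → ℝ} {K : Set ℂ} (h : GM c u K) {x : ℂ} {r : ℝ}
    (hr : 0 < r) (hR : Rem K (ball x r)) : ∃ g : ℂ → ℝ, (∀ z ∈ ball x (r / 2 / 2), LipAt g z) ∧
      ∀ z ∈ ball x (r / 2 / 2) \ K, u z = g z := by
  have hv : volume K = 0 := by simpa using h.toAM0.vol
  obtain ⟨F, hF, hFu⟩ := holo_ext h hr hR
  obtain ⟨Φ, hΦ⟩ := hF.isExactOn_ball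
  have hΦd : DifferentiableOn ℂ Φ (ball x (r / 2)) := fun z hz =>
    (hΦ z hz).differentiableAt.differentiableWithinAt
  have hd : ∀ z ∈ ball x (r / 2) \ K, HasFDerivAt (fun w => u w - (Φ w).re) (0 : ℂ →L[ℝ] ℝ) z := by
    intro z hz
    have h1 := (h.diff z ⟨mem_univ z, hz.2⟩).hasFDerivAt
    have h2 := Complex.reCLM.hasFDerivAt.comp z
      ((hΦ z hz.1).hasFDerivAt.restrictScalars ℝ)
    have h3 := h1.sub h2
    refine h3.congr_fderiv (ContinuousLinearMap.ext fun v => ?_)
    simp [fderiv_eq_dz, hFu z hz, mul_comm]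
  have hO : IsOpen (ball x (r / 2) \ K) := isOpen_ball.sdiff h.closed
  have hlc : LC (ball x (r / 2) \ K) fun w => u w - (Φ w).re := by
    intro z hz
    obtain ⟨δ, hδ, hs⟩ := Metric.isOpen_iff.1 hO z hz
    filter_upwards [ball_mem_nhds z hδ] with y hy
    exact isOpen_ball.is_const_of_fderiv_eq_zero (𝕜 := ℝ) (convex_ball z δ).isPreconnected
      (fun a ha => (hd a (hs ha)).differentiableAt.differentiableWithinAt)
      (fun a ha => (hd a (hs ha)).fderiv) hy (mem_ball_self hδ)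
  obtain ⟨b, hb⟩ := lc_const h.closed hv (half_pos hr)
    (hR.mono h.closed (half_le_self hr.le)) hlc
  refine ⟨fun z => (Φ z).re + b, fun z hz => ?_, fun z hz => ?_⟩
  · have hz' : z ∈ ball x (r / 2) := ball_subset_ball (by linarith) hz
    have h1 : ContDiffAt ℂ 1 Φ z :=
      (hΦd.analyticAt (isOpen_ball.mem_nhds hz')).contDiffAt
    have h2 : ContDiffAt ℝ 1 (fun w => (Φ w).re + b) z :=
      (Complex.reCLM.contDiff.contDiffAt.comp z (h1.restrict_scalars ℝ)).add contDiffAt_const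
    exact h2.exists_lipschitzOnWith
  · have := hb z hz
    linarith

theorem kill {c : ℝ} {u : ℂ → ℝ} {K : Set ℂ} (h : GM c u K) {x : ℂ} (hx : x ∈ K) {r : ℝ}
    (hr : 0 < r) (hR : Rem K (ball x r)) : False := by
  have hv : volume K = 0 := by simpa using h.toAM0.vol
  have hK := h.closed
  obtain ⟨g, hg, hug⟩ := smooth_Kill h hr hR
  obtain ⟨w, hw1, hw2⟩ := glue_Kill hK hug
  have hs : 0 < r / 8 := by positivity
  have hL : IsClosed (K \ ball x (r / 8)) := hK.sdiff isOpen_ball
  have hcase : ∀ z ∈ univ \ (K \ ball x (r / 8)), z ∉ K ∨ z ∈ ball x (r / 2 / 2) := by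
    intro z hz
    by_cases h1 : z ∈ K
    · right
      have h2 : z ∈ ball x (r / 8) := by
        by_contra h2
        exact hz.2 ⟨h1, h2⟩
      exact ball_subset_ball (by linarith) h2
    · exact Or.inl h1
  have hc : Comp univ True u K x (r / 8) w (K \ ball x (r / 8)) := by
    refine ⟨hL, ?_, fun z hz _ => (hw1 z hz.2).self_of_nhds, ?_, fun _ κ hκ => ?_⟩
    · ext z
      constructor
      · exact fun hz => ⟨hz.1.1, hz.2⟩
      · exact fun hz => ⟨⟨hz.1, fun h1 => hz.2 (ball_subset_closedBall h1)⟩, hz.2⟩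
    · rw [locLip_iff (isOpen_univ.sdiff hL)]
      intro z hz
      rcases hcase z hz with h1 | h1
      · exact ((locLip_iff (isOpen_univ.sdiff hK)).1 h.toAM0.locLip z ⟨mem_univ z, h1⟩).congr
          (hw1 z h1)
      · exact (hg z h1).congr (hw2 z h1)
    · obtain ⟨b, hb⟩ := lc_const hK hv (half_pos hr) (hR.mono hK (half_le_self hr.le))
        (κ := κ) fun z hz => hκ z ⟨mem_univ z, hz.2⟩
      obtain ⟨κ', h1, h2⟩ := glue_Kill hK (g := fun _ => b) hb
      refine ⟨κ', fun z hz => ?_, fun z hz _ => (h1 z hz.2).self_of_nhds⟩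
      rcases hcase z hz with h3 | h3
      · filter_upwards [h1 z h3, hκ z ⟨mem_univ z, h3⟩] with y e1 e2
        rw [e1, e2, (h1 z h3).self_of_nhds]
      · filter_upwards [h2 z h3] with y e1
        rw [e1, (h2 z h3).self_of_nhds]
  have hmin := h.min x (r / 8) w _ hs (subset_univ _) hc
  have hup := h.toAM0.upper (y := x) hs (subset_univ _)
  have hnK : ∀ᵐ z : ℂ, z ∉ K := measure_eq_zero_iff_ae_notMem.1 hv
  have e1 : Dir w (closedBall x (r / 8) \ (K \ ball x (r / 8))) =
      Dir u (closedBall x (r / 8) \ K) := by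
    have e2 : (closedBall x (r / 8) \ (K \ ball x (r / 8)) : Set ℂ) =ᵐ[volume]
        (closedBall x (r / 8) \ K : Set ℂ) := by
      filter_upwards [hnK] with z hz
      exact propext ⟨fun h1 => ⟨h1.1, hz⟩, fun h1 => ⟨h1.1, fun h2 => hz h2.1⟩⟩
    unfold Dir
    rw [setLIntegral_congr e2]
    refine lintegral_congr_ae (ae_restrict_of_ae ?_)
    filter_upwards [hnK] with z hz
    rw [(hw1 z hz).fderiv_eq]
  have e3 : μH[1] (K ∩ closedBall x (r / 8)) =
      μH[1] (K ∩ ball x (r / 8)) + μH[1] ((K \ ball x (r / 8)) ∩ closedBall x (r / 8)) := by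
    rw [← measure_inter_add_sdiff (K ∩ closedBall x (r / 8))
      (measurableSet_ball (x := x) (ε := r / 8))]
    congr 2
    · rw [inter_assoc, inter_eq_right.2 ball_subset_closedBall]
    · ext z
      simp only [Set.mem_sdiff, mem_inter_iff]
      tauto
  have hd := h.dens x hx (r / 8) hs (subset_univ _)
  have hpos : 0 < μH[1] (K ∩ ball x (r / 8)) :=
    lt_of_lt_of_le (ENNReal.ofReal_pos.2 (mul_pos h.cpos hs)) hd
  unfold En at hmin hup
  rw [e1, zero_mul, zero_mul, ENNReal.ofReal_zero, add_zero, e3] at hmin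
  rw [e3] at hup
  have hfin : Dir u (closedBall x (r / 8) \ K) +
      μH[1] ((K \ ball x (r / 8)) ∩ closedBall x (r / 8)) ≠ ∞ := by
    refine ne_top_of_le_ne_top ENNReal.ofReal_ne_top (le_trans ?_ hup)
    gcongr
    exact le_add_self
  have h5 := ENNReal.lt_add_right hfin hpos.ne'
  refine absurd hmin (not_le.2 (lt_of_lt_of_eq h5 ?_))
  ring

end Vale.Agent.P128.EARN
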