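import Vale.Agent.P128.EARN.PotA

/-! P128 EARN/Pot. The potential. Plan: the form z -> innerSL (N z) is smooth and closed on the
plane, take a primitive as in TA3/PL (or Mathlib Poincare lemma on convex sets). -/

namespace Vale.Agent.P128.EARN

open MeasureTheory Set Metric Filter Topology
open scoped ENNReal

theorem dec_Pot (L : ℂ →L[ℝ] ℂ) (x : ℂ) : L x = x.re • L 1 + x.im • L Complex.I := by
  rw [← map_smul, ← map_smul, ← map_add]
  congr 1
  apply Complex.ext <;> simp

theorem exists_pot {h : ℂ → ℝ} (hh : ContDiff ℝ (⊤ : ℕ∞) h) (hc : HasCompactSupport h) :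
    ∃ p, Pot h p := by
  obtain ⟨N, hN, h1, h2, h3⟩ := exists_field hh hc
  have hNd : Differentiable ℝ N := hN.differentiable (by simp)
  have hX : ContDiff ℝ (⊤ : ℕ∞) fun z => (innerSL ℝ (N z) : ℂ →L[ℝ] ℝ) :=
    (innerSL ℝ (E := ℂ)).contDiff.comp hN
  have hD : ∀ a, HasFDerivAt (fun z => (innerSL ℝ (N z) : ℂ →L[ℝ] ℝ))
      ((innerSL ℝ (E := ℂ)).comp (fderiv ℝ N a)) a := fun a =>
    (innerSL ℝ (E := ℂ)).hasFDerivAt.comp a (hNd a).hasFDerivAt
  obtain ⟨p, hp⟩ := (convex_univ (𝕜 := ℝ) (E := ℂ)).exists_forall_hasFDerivAt_of_fderiv_symmetric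
    isOpen_univ (hX.differentiable (by simp)).differentiableOn (fun a _ x y => by
      rw [(hD a).fderiv]
      show inner ℝ (fderiv ℝ N a x) y = inner ℝ (fderiv ℝ N a y) x
      rw [dec_Pot _ x, dec_Pot _ y]
      simp only [Complex.inner, Complex.mul_re, Complex.conj_re, Complex.conj_im, Complex.add_re,
        Complex.add_im, Complex.smul_re, Complex.smul_im, smul_eq_mul, h2 a]
      ring)
  have hf : fderiv ℝ p = fun z => (innerSL ℝ (N z) : ℂ →L[ℝ] ℝ) :=
    funext fun a => (hp a (mem_univ a)).fderiv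
  refine ⟨p, ?_, fun z => ?_, ?_⟩
  · rw [contDiff_infty_iff_fderiv, hf]
    exact ⟨fun a => (hp a (mem_univ a)).differentiableAt, hX⟩
  · have e1 : (fun w => fderiv ℝ p w 1) = fun w => Complex.reCLM (N w) := by
      funext w
      simp [hf, Complex.inner]
    have e2 : (fun w => fderiv ℝ p w Complex.I) = fun w => Complex.imCLM (N w) := by
      funext w
      simp [hf, Complex.inner]
    have d1 : HasFDerivAt (fun w => Complex.reCLM (N w)) (Complex.reCLM.comp (fderiv ℝ N z)) z :=
      Complex.reCLM.hasFDerivAt.comp z (hNd z).hasFDerivAt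
    have d2 : HasFDerivAt (fun w => Complex.imCLM (N w)) (Complex.imCLM.comp (fderiv ℝ N z)) z :=
      Complex.imCLM.hasFDerivAt.comp z (hNd z).hasFDerivAt
    rw [lap, e1, e2, d1.fderiv, d2.fderiv]
    exact h1 z
  · rw [hf]
    have := ((innerSL ℝ (E := ℂ)).continuous.tendsto 0).comp h3
    rw [map_zero] at this
    exact this

end Vale.Agent.P128.EARN
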