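import Vale.Agent.P128.EARN.Calc

/-! P128 EARN/Rem. Removability from the key identity. Plan: 1/k = alpha + i beta on the ball;
psi1 = indicator (ball minus K) (phi eta alpha), psi2 the same with beta, both tests with
C = tsupport phi; at points of differentiability of eta (locLip_ae_diff),
k (gr psi1 + i gr psi2) = gr (phi eta) because gr alpha + i gr beta = 0 (Cauchy-Riemann); off the ball
both gradients vanish. -/

namespace Vale.Agent.P128.EARN

open MeasureTheory Set Metric Filter Topology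
open scoped ENNReal

theorem mul_Rem {f g : ℂ → ℝ} {z : ℂ} (h : LipAt f z) (h' : LipAt g z) :
    LipAt (fun w => f w * g w) z := by
  obtain ⟨C, t, ht, h⟩ := h
  obtain ⟨C', t', ht', h'⟩ := h'
  have h1 := (h.mono (inter_subset_left (t := t'))).prodMk (h'.mono inter_subset_right)
  have h2 : ContDiffAt ℝ 1 (fun p : ℝ × ℝ => p.1 * p.2) (f z, g z) := by fun_prop
  obtain ⟨C'', s, hs, h3⟩ := h2.exists_lipschitzOnWith
  have h4 := h1.continuousOn.continuousAt (inter_mem ht ht') hs
  exact ⟨_, (t ∩ t') ∩ (fun w => (f w, g w)) ⁻¹' s, inter_mem (inter_mem ht ht') h4,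
    h3.comp (h1.mono inter_subset_left) fun w hw => hw.2⟩

theorem zero_Rem {C : Set ℂ} (hC : IsCompact C) {ψ : ℂ → ℝ} (h0 : ∀ z, z ∉ C → ψ z = 0) {z : ℂ}
    (hz : z ∉ C) : ψ =ᶠ[𝓝 z] (fun _ => 0) ∧ gr ψ z = 0 := by
  have e : ψ =ᶠ[𝓝 z] fun _ => 0 := by
    filter_upwards [hC.isClosed.isOpen_compl.mem_nhds hz] with w hw
    exact h0 w hw
  exact ⟨e, by rw [(gr_congr e).1]; simp [gr]⟩

theorem int_Rem {K C : Set ℂ} (hv : volume K = 0) (hC : IsCompact C) {ψ : ℂ → ℝ}
    (h : Test K C ψ) {k : ℂ → ℂ} (hk : ContinuousOn k C) : Integrable fun z => k z * gr ψ z := by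
  have h1 := (dir_eq ψ Kᶜ).1.1 h.fin
  rw [Measure.restrict_eq_self_of_ae_mem (s := Kᶜ) (measure_eq_zero_iff_ae_notMem.1 hv)] at h1
  have := isFiniteMeasure_restrict.2 (hC.measure_lt_top (μ := volume)).ne
  have h2 : IntegrableOn (gr ψ) C := (h1.restrict C).integrable (by norm_num)
  exact (h2.continuousOn_mul hk hC).integrable_of_forall_notMem_eq_zero fun z hz => by
    rw [(zero_Rem hC h.zero hz).2, mul_zero]

theorem test_Rem {K B C : Set ℂ} (hK : IsClosed K) (hv : volume K = 0) (hB : IsOpen B)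
    (hC : IsCompact C) (hCB : C ⊆ B) {g η : ℂ → ℝ} (hg : ContDiff ℝ 1 g)
    (h0 : ∀ z, z ∉ C → g z = 0) (hη : LocallyLipschitzOn (B \ K) η)
    (hb : ∃ M, ∀ z ∈ B \ K, |η z| ≤ M) (hf : Dir η (B \ K) < ∞) :
    Test K C ((B \ K).indicator fun z => g z * η z) ∧
      gr ((B \ K).indicator fun z => g z * η z) =ᵐ[volume]
        (B \ K).indicator fun z => (g z : ℂ) * gr η z + (η z : ℂ) * gr g z := by
  have hU : IsOpen (B \ K) := hB.sdiff hK
  have z0 : ∀ z, z ∉ C → (B \ K).indicator (fun z => g z * η z) z = 0 := fun z hz =>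
    indicator_apply_eq_zero.2 fun _ => by rw [h0 z hz, zero_mul]
  have e : ∀ z ∈ B \ K, (B \ K).indicator (fun z => g z * η z) =ᶠ[𝓝 z] fun z => g z * η z :=
    fun z hz => by
      filter_upwards [hU.mem_nhds hz] with w hw
      exact indicator_of_mem hw _
  have hae : gr ((B \ K).indicator fun z => g z * η z) =ᵐ[volume]
      (B \ K).indicator fun z => (g z : ℂ) * gr η z + (η z : ℂ) * gr g z := by
    filter_upwards [measure_eq_zero_iff_ae_notMem.1 hv,
      (ae_restrict_iff' hU.measurableSet).1 (locLip_ae_diff hU hη)] with z hz hd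
    by_cases hzB : z ∈ B
    · rw [indicator_of_mem (show z ∈ B \ K from ⟨hzB, hz⟩), (gr_congr (e z ⟨hzB, hz⟩)).1]
      exact (gr_add (hg.differentiable one_ne_zero z) (hd ⟨hzB, hz⟩)).2.2.2.2
    · rw [indicator_of_notMem fun h => hzB h.1]
      exact (zero_Rem hC z0 fun h => hzB (hCB h)).2
  obtain ⟨M, hM⟩ := hb
  have hs : HasCompactSupport g := HasCompactSupport.intro hC h0
  obtain ⟨N, hN⟩ := hg.continuous.bounded_above_of_compact_support hs
  refine ⟨⟨z0, (locLip_iff hK.isOpen_compl).2 fun z hz => ?_, ⟨|N| * |M|, fun z => ?_⟩, ?_⟩, hae⟩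
  · by_cases hzB : z ∈ B
    · exact (mul_Rem (hg.contDiffAt.exists_lipschitzOnWith) ((locLip_iff hU).1 hη z
        ⟨hzB, hz⟩)).congr (e z ⟨hzB, hz⟩)
    · exact (lipAt_const 0 z).congr (zero_Rem hC z0 fun h => hzB (hCB h)).1
  · by_cases hz : z ∈ B \ K
    · rw [indicator_of_mem hz, abs_mul]
      exact mul_le_mul ((hN z).trans (le_abs_self N)) ((hM z hz).trans (le_abs_self M))
        (abs_nonneg _) (abs_nonneg _)
    · rw [indicator_of_notMem hz, abs_zero]
      positivity
  · refine (dir_eq _ _).1.2 (MemLp.restrict _ ((memLp_congr_ae hae).2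
      ((memLp_indicator_iff_restrict hU.measurableSet).2 (MemLp.add ?_ ?_))))
    · refine ((dir_eq η _).1.1 hf).of_le_mul (c := N)
        ((Complex.continuous_ofReal.comp hg.continuous).aestronglyMeasurable.mul
          (measurable_gr η).1.aestronglyMeasurable) (Eventually.of_forall fun z => ?_)
      rw [norm_mul, Complex.norm_real]
      exact mul_le_mul_of_nonneg_right (hN z) (norm_nonneg _)
    · have hc : Continuous (gr g) := by
        have := hg.continuous_fderiv one_ne_zero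
        unfold gr
        fun_prop
      have h1 : MemLp (gr g) 2 (volume.restrict (B \ K)) := hc.memLp_of_hasCompactSupport
        (HasCompactSupport.intro hC fun z hz => (zero_Rem hC h0 hz).2)
      refine h1.of_le_mul (c := M) (((Complex.continuous_ofReal.comp_continuousOn
        hη.continuousOn).aestronglyMeasurable hU.measurableSet).mul hc.aestronglyMeasurable) ?_
      filter_upwards [ae_restrict_mem hU.measurableSet] with z hz
      rw [norm_mul, Complex.norm_real]
      exact mul_le_mul_of_nonneg_right (hM z hz) (norm_nonneg _)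

theorem cr_Rem {f : ℂ → ℂ} {z : ℂ} (hf : DifferentiableAt ℂ f z) :
    gr (fun w => (f w).re) z + Complex.I * gr (fun w => (f w).im) z = 0 := by
  have h1 := hf.hasDerivAt.hasFDerivAt.restrictScalars ℝ
  have h2 : fderiv ℝ (fun w => (f w).re) z = _ := (Complex.reCLM.hasFDerivAt.comp z h1).fderiv
  have h3 : fderiv ℝ (fun w => (f w).im) z = _ := (Complex.imCLM.hasFDerivAt.comp z h1).fderiv
  rw [gr, gr, h2, h3]
  apply Complex.ext <;> simp

theorem cd_Rem {B : Set ℂ} (hB : IsOpen B) {φ a : ℂ → ℝ} (hφ : ContDiff ℝ 1 φ)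
    (hs : tsupport φ ⊆ B) (ha : ContDiffOn ℝ 1 a B) : ContDiff ℝ 1 fun z => φ z * a z := by
  refine contDiff_iff_contDiffAt.2 fun z => ?_
  by_cases hz : z ∈ tsupport φ
  · exact hφ.contDiffAt.mul (ha.contDiffAt (hB.mem_nhds (hs hz)))
  · refine (contDiffAt_const (c := (0 : ℝ))).congr_of_eventuallyEq ?_
    filter_upwards [notMem_tsupport_iff_eventuallyEq.1 hz] with w hw
    rw [hw, Pi.zero_apply, zero_mul]

theorem rem_of_key {K : Set ℂ} (hK : IsClosed K) (hv : volume K = 0) {x : ℂ} {r : ℝ} {k : ℂ → ℂ}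
    (hk : DifferentiableOn ℂ k (ball x r)) (hk0 : ∀ z ∈ ball x r, k z ≠ 0)
    (h : ∀ (C : Set ℂ) (ψ : ℂ → ℝ), IsCompact C → C ⊆ ball x r → Test K C ψ →
      ∫ z, k z * gr ψ z = 0) : Rem K (ball x r) := by
  intro η hη hb hf φ hφ hc hs
  have hφ1 : ContDiff ℝ 1 φ := hφ.of_le (by exact_mod_cast le_top)
  have hi : DifferentiableOn ℂ (fun z => (k z)⁻¹) (ball x r) := hk.inv hk0
  have hi' : ContDiffOn ℝ 1 (fun z => (k z)⁻¹) (ball x r) :=
    (hi.contDiffOn isOpen_ball).restrict_scalars ℝ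
  have ha : ContDiffOn ℝ 1 (fun z => ((k z)⁻¹).re) (ball x r) :=
    Complex.reCLM.contDiff.comp_contDiffOn hi'
  have hb' : ContDiffOn ℝ 1 (fun z => ((k z)⁻¹).im) (ball x r) :=
    Complex.imCLM.contDiff.comp_contDiffOn hi'
  have h0 : ∀ a : ℂ → ℝ, ∀ z, z ∉ tsupport φ → φ z * a z = 0 := fun a z hz => by
    rw [image_eq_zero_of_notMem_tsupport hz, zero_mul]
  obtain ⟨t1, e1⟩ := test_Rem hK hv isOpen_ball hc hs (cd_Rem isOpen_ball hφ1 hs ha) (h0 _) hη hb hf
  obtain ⟨t2, e2⟩ := test_Rem hK hv isOpen_ball hc hs (cd_Rem isOpen_ball hφ1 hs hb') (h0 _) hη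
    hb hf
  have i1 := int_Rem hv hc t1 (hk.continuousOn.mono hs)
  have i2 := int_Rem hv hc t2 (hk.continuousOn.mono hs)
  have h1 := integral_add i1 (i2.const_mul Complex.I)
  rw [integral_const_mul, h _ _ hc hs t1, h _ _ hc hs t2, mul_zero, add_zero] at h1
  rw [← integral_indicator (isOpen_ball.sdiff hK).measurableSet, ← h1]
  refine integral_congr_ae ?_
  filter_upwards [e1, e2] with z h2 h3
  rw [h2, h3]
  by_cases hz : z ∈ ball x r \ K
  · have hn := isOpen_ball.mem_nhds hz.1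
    have d := hφ1.differentiable one_ne_zero z
    rw [indicator_of_mem hz, indicator_of_mem hz, indicator_of_mem hz,
      (gr_add d ((ha.contDiffAt hn).differentiableAt one_ne_zero)).2.2.2.2,
      (gr_add d ((hb'.contDiffAt hn).differentiableAt one_ne_zero)).2.2.2.2]
    have h4 := cr_Rem (hi.differentiableAt hn)
    have h5 : k z * ((((k z)⁻¹).re : ℂ) + (((k z)⁻¹).im : ℂ) * Complex.I) = 1 := by
      rw [Complex.re_add_im, mul_inv_cancel₀ (hk0 z hz.1)]
    push_cast
    linear_combination (-(φ z : ℂ) * gr η z - (η z : ℂ) * gr φ z) * h5 -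
      k z * (η z : ℂ) * (φ z : ℂ) * h4
  · rw [indicator_of_notMem hz, indicator_of_notMem hz, indicator_of_notMem hz]
    simp

end Vale.Agent.P128.EARN
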