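import Vale.Agent.P128.EARN.Defs

/-! P128 EARN/Setup. Existence of the configuration. Plan: U = component of a far point
in the complement of G (connectedComponentIn, open, contains the outside of a ball by
outside_preconn_TA3); new piece G1 = K cap U^c, rest K cap U (closed since the frontier of U is in
G and K minus G is closed); G1^c minus U = (G^c minus U) minus (K minus G) is open; cutoff by
exists_contMDiff or exists_smooth_one_nhds_of_subset_interior style lemmas for the compact set U^c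
inside the open set thickening d (U^c), 5 a0 = d small. -/

namespace Vale.Agent.P128.EARN

open MeasureTheory Set Metric Filter Topology
open scoped ENNReal

theorem setup {K G : Set ℂ} (hK : IsClosed K) (hG : G ⊆ K) (hc : IsCompact G)
    (hr : IsClosed (K \ G)) (hne : G.Nonempty) :
    ∃ (G₁ K' U : Set ℂ) (χ : ℂ → ℝ) (a₀ : ℝ), Cfg K G₁ K' U χ a₀ := by
  obtain ⟨R, hR⟩ := hc.isBounded.subset_closedBall 0
  have hO : {z : ℂ | R < dist z 0} ⊆ Gᶜ := fun z hz h => (mem_closedBall.1 (hR h)).not_gt hz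
  have h0 : ((|R| + 1 : ℝ) : ℂ) ∈ {z : ℂ | R < dist z 0} := by
    rw [mem_ofPred_eq, dist_zero_right, Complex.norm_real]
    exact ((le_abs_self R).trans_lt (lt_add_one _)).trans_le (le_abs_self _)
  have hGo := hc.isClosed.isOpen_compl
  obtain ⟨U, hU⟩ : ∃ U, U = connectedComponentIn Gᶜ ((|R| + 1 : ℝ) : ℂ) := ⟨_, rfl⟩
  have oU : IsOpen U := hU ▸ hGo.connectedComponentIn
  have UG : U ⊆ Gᶜ := hU ▸ connectedComponentIn_subset _ _
  have OU : {z : ℂ | R < dist z 0} ⊆ U :=
    hU ▸ (outside_preconn_TA3 0 R).subset_connectedComponentIn h0 hO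
  have cU : IsCompact Uᶜ := (isCompact_closedBall 0 R).of_isClosed_subset oU.isClosed_compl
    fun z hz => mem_closedBall.2 (not_lt.1 fun h => hz (OU h))
  have ho : IsOpen (Gᶜ \ U) := by
    refine isOpen_iff_mem_nhds.2 fun z hz => mem_of_superset
      (hGo.connectedComponentIn.mem_nhds (mem_connectedComponentIn hz.1)) fun w hw => ?_
    refine ⟨connectedComponentIn_subset _ _ hw, fun h => hz.2 ?_⟩
    rw [hU] at h ⊢
    rw [connectedComponentIn_eq h, ← connectedComponentIn_eq hw]
    exact mem_connectedComponentIn hz.1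
  have cK : IsClosed (K ∩ U) := by
    have e : K ∩ U = (K \ G) ∩ (Gᶜ \ U)ᶜ := by
      ext z
      exact ⟨fun h => ⟨⟨h.1, UG h.2⟩, fun h' => h'.2 h.2⟩,
        fun h => ⟨h.1.1, by_contra fun h' => h.2 ⟨h.1.2, h'⟩⟩⟩
    rw [e]
    exact hr.inter ho.isClosed_compl
  obtain ⟨δ, hδ, hd⟩ := cU.exists_cthickening_subset_open cK.isOpen_compl fun z hz h => hz h.2
  obtain ⟨f, f1, f0, -⟩ := exists_contMDiffMap_one_nhds_of_subset_interior
    (modelWithCornersSelf ℝ ℂ) (n := ⊤) (t := cthickening (δ / 2) Uᶜ) oU.isClosed_compl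
    ((self_subset_thickening (half_pos hδ) _).trans (thickening_subset_interior_cthickening _ _))
  have hs : tsupport f ⊆ cthickening (δ / 2) Uᶜ :=
    closure_minimal (fun z hz => by_contra fun h => hz (f0 z h)) isClosed_cthickening
  refine ⟨K ∩ Uᶜ, K ∩ U, U, f, δ / 4, by rw [union_comm, inter_union_compl], cU.inter_left hK,
    hne.mono fun z hz => ⟨hG hz, fun h => UG h hz⟩, cK, oU,
    hU ▸ isPreconnected_connectedComponentIn, cU, inter_subset_right, inter_subset_right, ?_,
    f.contMDiff.contDiff, HasCompactSupport.intro cU.cthickening f0,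
    fun z hz => f1.filter_mono (nhds_le_nhdsSet hz), by positivity, ?_⟩
  · have e : (K ∩ Uᶜ)ᶜ \ U = (Gᶜ \ U) ∩ (K \ G)ᶜ := by
      ext z
      exact ⟨fun h => ⟨⟨fun h' => h.1 ⟨hG h', h.2⟩, h.2⟩, fun h' => h.1 ⟨h'.1, h.2⟩⟩,
        fun h => ⟨fun h' => h.2 ⟨h'.1, h.1.1⟩, h.1.2⟩⟩
    rw [e]
    exact ho.inter hr.isOpen_compl
  · refine subset_compl_iff_disjoint_right.1 (((cthickening_subset_of_subset _ hs).trans
      (cthickening_cthickening_subset (by positivity) (by positivity) _)).trans ?_)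
    rwa [show 2 * (δ / 4) + δ / 2 = δ by ring]

end Vale.Agent.P128.EARN
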