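import Vale.Agent.P128.B3.Main
import Vale.Agent.P128.EARN.Setup
import Vale.Agent.P128.EARN.Pot
import Vale.Agent.P128.EARN.Key
import Vale.Agent.P128.EARN.Rem
import Vale.Agent.P128.EARN.Kill
import Vale.Agent.P128.EARN.Deg
import Vale.Agent.P128.EARN.Cpt

/-! P128 block EARN: limits of almost minimizers have no compact piece. -/

namespace Vale.Agent.P128

open MeasureTheory Set Metric Filter Topology
open scoped ENNReal

theorem EARN.test_of {K G K' C : Set ℂ} {ψ : ℂ → ℝ} (hK : IsClosed K) (hU : K = G ∪ K')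
    (hv : volume K = 0) (hC : IsClosed C) (hd : Disjoint C G) (h : EARN.Test K C ψ) :
    EARN.Test K' C ψ := by
  refine ⟨h.zero, ?_, h.bdd, ?_⟩
  · intro z hz
    by_cases hzC : z ∈ C
    · have hzK : z ∉ K := by
        rw [hU]
        rintro (hg | hk)
        · exact hd.le_bot ⟨hzC, hg⟩
        · exact hz hk
      obtain ⟨L, t, ht, hL⟩ := h.lip hzK
      rw [hK.isOpen_compl.nhdsWithin_eq hzK] at ht
      exact ⟨L, t, mem_nhdsWithin_of_mem_nhds ht, hL⟩
    · refine ⟨0, Cᶜ, mem_nhdsWithin_of_mem_nhds (hC.isOpen_compl.mem_nhds hzC), ?_⟩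
      intro a ha b hb
      simp [h.zero a ha, h.zero b hb]
  · have h1 : K'ᶜ ⊆ Kᶜ ∪ K := by simp
    calc Dir ψ K'ᶜ ≤ Dir ψ (Kᶜ ∪ K) := lintegral_mono_set h1
      _ ≤ Dir ψ Kᶜ + Dir ψ K := lintegral_union_le _ _ _
      _ = Dir ψ Kᶜ := by
          have : Dir ψ K = 0 := by
            unfold Dir
            exact setLIntegral_measure_zero _ _ hv
          rw [this, add_zero]
      _ < ∞ := h.fin

theorem GM.noPiece {c : ℝ} {u : ℂ → ℝ} {K : Set ℂ} (h : GM c u K) : NoPiece K := by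
  intro G₀ hG₀ hc₀ hr₀
  by_contra hne
  obtain ⟨G, K', U, χ, a₀, hC⟩ :=
    EARN.setup h.closed hG₀ hc₀ hr₀ (nonempty_iff_ne_empty.2 hne)
  rcases K'.eq_empty_or_nonempty with hK' | ⟨x, hx⟩
  · have hKG : K = G := by rw [hC.union, hK', union_empty]
    have h1 := EARN.cpt h (hKG ▸ hC.cG)
    exact hC.ne.ne_empty (hKG ▸ h1)
  obtain ⟨hv, -, -, hs, hcs, -⟩ := EARN.pieces h hC
  obtain ⟨p, hp⟩ := EARN.exists_pot hs hcs
  obtain ⟨-, -, hol⟩ := EARN.holo_pieces h hC hp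
  obtain ⟨-, hUχ, -⟩ := hC.sets
  set T := cthickening a₀ (tsupport χ) with hT
  have hTc : IsClosed T := isClosed_cthickening
  have hχT : tsupport χ ⊆ T := self_subset_cthickening _
  have hxT : x ∉ T := fun hxT =>
    hC.far.le_bot ⟨cthickening_mono (by linarith [hC.apos]) _ hxT, hx⟩
  have hopen : IsOpen (tsupport χ)ᶜ := (isClosed_tsupport χ).isOpen_compl
  have hk : DifferentiableOn ℂ (deriv (dz p)) (tsupport χ)ᶜ := hol.deriv hopen
  have han : AnalyticAt ℂ (deriv (dz p)) x :=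
    hk.analyticAt (hopen.mem_nhds fun hh => hxT (hχT hh))
  rcases han.eventually_eq_zero_or_eventually_ne_zero with h0 | h0
  · exact EARN.deg h hC hp hx h0
  have h1 : ∀ᶠ z in 𝓝 x, z ∉ T ∧ (z ≠ x → deriv (dz p) z ≠ 0) := by
    filter_upwards [hTc.isOpen_compl.mem_nhds hxT, eventually_nhdsWithin_iff.1 h0] with z h1 h2
    exact ⟨h1, fun hz => h2 hz⟩
  obtain ⟨r, hr, hball⟩ := Metric.eventually_nhds_iff_ball.1 h1
  have hxK : x ∈ K := by rw [hC.union]; exact Or.inr hx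
  obtain ⟨y, hy, hyx⟩ : ∃ y ∈ K ∩ ball x r, y ≠ x := by
    by_contra hcon
    push Not at hcon
    have h2 := h.dens x hxK r hr (subset_univ _)
    have h3 : μH[1] (K ∩ ball x r) ≤ μH[1] ({x} : Set ℂ) := measure_mono fun z hz => hcon z hz
    haveI := MeasureTheory.Measure.noAtoms_hausdorff ℂ (d := 1) one_pos
    rw [measure_singleton] at h3
    have h4 : 0 < ENNReal.ofReal (c * r) := ENNReal.ofReal_pos.2 (mul_pos h.cpos hr)
    exact absurd (h2.trans h3) (not_le.2 h4)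
  obtain ⟨s, hs0, hsub⟩ := Metric.isOpen_iff.1 (isOpen_ball.inter isOpen_compl_singleton) y
    (⟨hy.2, hyx⟩ : y ∈ ball x r ∩ {x}ᶜ)
  refine EARN.kill h hy.1 hs0 (EARN.rem_of_key (k := deriv (dz p)) h.closed hv ?_ ?_ ?_)
  · exact hk.mono fun z hz hh => (hball z (hsub hz).1).1 (hχT hh)
  · exact fun z hz => (hball z (hsub hz).1).2 (hsub hz).2
  · intro C ψ hCc hCs hψ
    have hd : Disjoint C T := disjoint_left.2 fun z hz => (hball z (hsub (hCs hz)).1).1
    exact EARN.key h hC hp hCc hd (EARN.test_of h.closed hC.union hv hCc.isClosed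
      (hd.mono_right (hC.GU.trans (hUχ.trans hχT))) hψ)

theorem earn {c : ℝ} {Ω : ℕ → Set ℂ} {ε : ℕ → ℝ} {wk : ℕ → Prop} {u : ℕ → ℂ → ℝ}
    {K : ℕ → Set ℂ} {v : ℂ → ℝ} {L : Set ℂ} (hs : Seq c Ω ε wk u K) (h : Conv0 u K v L) :
    NoPiece L :=
  (conv_of_conv0 hs h).1.noPiece

end Vale.Agent.P128
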