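import Vale.Agent.P128.EARN.Basic

/-! P128 EARN/Min. Minimality against the translated piece. Plan: competitor
w(z - a) + s z + theta z with L = (G + a) cup K' in closedBall 0 R, R large; Sep from sepfun;
length of G + a equals length of G (isometry); both energies are integrals of squared norms of
gr over closedBall 0 R (dir_eq, null sets K and L, locLip_ae_diff for theta); expand with
norm_add_sq_real; all fields except gr s vanish outside the ball. -/

namespace Vale.Agent.P128.EARN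

open MeasureTheory Set Metric Filter Topology
open scoped ENNReal

variable {c : ℝ} {u : ℂ → ℝ} {K G K' U : Set ℂ} {χ : ℂ → ℝ} {a₀ : ℝ}

theorem lipAt_Min {f : ℂ → ℝ} {z : ℂ} (h : ContDiffAt ℝ (⊤ : ℕ∞) f z) : LipAt f z :=
  (h.of_le (by exact_mod_cast le_top : (1 : WithTop ℕ∞) ≤ (⊤ : ℕ∞))).exists_lipschitzOnWith

theorem at_Min (h : GM c u K) (hC : Cfg K G K' U χ a₀) (a : ℂ) {z : ℂ}
    (hz : z ∉ (fun z => z - a) ⁻¹' G ∪ K') :
    ContDiffAt ℝ (⊤ : ℕ∞) (fun z => wf χ u (z - a)) z ∧ ContDiffAt ℝ (⊤ : ℕ∞) (sf χ u) z := by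
  obtain ⟨-, p1, p2, -⟩ := pieces h hC
  rw [mem_union, not_or] at hz
  have h1 : ContDiffAt ℝ (⊤ : ℕ∞) (wf χ u) (z - a) :=
    p1.contDiffAt (hC.cG.isClosed.isOpen_compl.mem_nhds hz.1)
  exact ⟨h1.comp z (f := fun z => z - a) (contDiffAt_id.sub contDiffAt_const),
    p2.contDiffAt (hC.cK.isOpen_compl.mem_nhds hz.2)⟩

theorem comp_Min (h : GM c u K) (hC : Cfg K G K' U χ a₀) (a : ℂ) {θ : ℂ → ℝ} {C : Set ℂ}
    (hθ : Test K' C θ) {R : ℝ} (hCR : C ⊆ closedBall 0 R)
    (h1 : tsupport χ ⊆ closedBall 0 R) (h2 : ∀ z ∈ tsupport χ, z + a ∈ closedBall (0 : ℂ) R) :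
    Comp univ True u K 0 R (fun z => wf χ u (z - a) + sf χ u z + θ z)
      ((fun z => z - a) ⁻¹' G ∪ K') := by
  have hG : G ⊆ tsupport χ := hC.GU.trans hC.sets.2.1
  have h3 : ∀ z, z - a ∈ tsupport χ → z ∈ closedBall (0 : ℂ) R := fun z hz => by
    simpa using h2 _ hz
  have hL : IsClosed ((fun z => z - a) ⁻¹' G ∪ K') :=
    (hC.cG.isClosed.preimage (continuous_id.sub continuous_const)).union hC.cK
  obtain ⟨-, -, -, -, -, -, -, -, p1, -, p2⟩ := pieces h hC
  refine ⟨hL, ?_, fun z _ hz => ?_, ?_, fun _ κ hκ => ?_⟩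
  · rw [hC.union]
    ext z
    simp only [Set.mem_sdiff, mem_union, mem_preimage]
    constructor
    · rintro ⟨hz | hz, hB⟩
      · exact absurd (h3 z (hG hz)) hB
      · exact ⟨Or.inr hz, hB⟩
    · rintro ⟨hz | hz, hB⟩
      · exact absurd (h1 (hG hz)) hB
      · exact ⟨Or.inr hz, hB⟩
  · rw [(p1 (z - a) fun hc => hz (h3 z hc)).1, hθ.zero z fun hc => hz (hCR hc), ← p2 z,
      (p1 z fun hc => hz (h1 hc)).1, add_zero]
  · rw [locLip_iff (isOpen_univ.sdiff hL)]
    intro z hz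
    obtain ⟨a1, a2⟩ := at_Min h hC a hz.2
    exact ((lipAt_Min a1).add (lipAt_Min a2)).add
      ((locLip_iff hC.cK.isOpen_compl).1 hθ.lip z fun hc => hz.2 (Or.inr hc))
  · obtain ⟨κ', k1, k2⟩ := sepfun h.closed hC h1 hκ
    exact ⟨κ', fun z hz => k1 z ⟨trivial, fun hc => hz.2 (Or.inr hc)⟩, fun z _ hz => k2 z hz⟩

theorem len_Min (hC : Cfg K G K' U χ a₀) (a : ℂ) {R : ℝ} (h1 : tsupport χ ⊆ closedBall 0 R) :
    μH[1] (((fun z => z - a) ⁻¹' G ∪ K') ∩ closedBall (0 : ℂ) R) ≤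
      μH[1] (K ∩ closedBall (0 : ℂ) R) := by
  have hG : G ⊆ closedBall 0 R := (hC.GU.trans hC.sets.2.1).trans h1
  have e1 : μH[1] ((fun z => z - a) ⁻¹' G) = μH[1] G := by
    simp only [sub_eq_add_neg]
    exact measure_preimage_add_right _ _ _
  rw [hC.union, union_inter_distrib_right, union_inter_distrib_right, inter_eq_left.2 hG,
    measure_union (hC.sets.1.mono_right inter_subset_left)
      (hC.cK.measurableSet.inter measurableSet_closedBall), ← e1]
  exact (measure_union_le _ _).trans (add_le_add (measure_mono inter_subset_left) le_rfl)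

theorem ae_Min (h : GM c u K) (hC : Cfg K G K' U χ a₀) (a : ℂ) {θ : ℂ → ℝ} {C : Set ℂ}
    (hθ : Test K' C θ) : MemLp (gr θ) 2 volume ∧
      ∀ᵐ z, gr (fun z => wf χ u (z - a) + sf χ u z + θ z) z =
        gr (wf χ u) (z - a) + gr (sf χ u) z + gr θ z := by
  have h0 : volume K = 0 := (pieces h hC).1
  rw [hC.union] at h0
  have h1 : volume G = 0 := measure_mono_null subset_union_left h0
  have h2 : volume K' = 0 := measure_mono_null subset_union_right h0
  have h3 : volume ((fun z => z - a) ⁻¹' G) = 0 := by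
    simp only [sub_eq_add_neg]
    rw [measure_preimage_add_right, h1]
  have e : volume.restrict K'ᶜ = volume :=
    Measure.restrict_eq_self_of_ae_mem (compl_mem_ae_iff.2 h2)
  have h4 := (dir_eq θ K'ᶜ).1.1 hθ.fin
  have h5 := locLip_ae_diff hC.cK.isOpen_compl hθ.lip
  rw [e] at h4 h5
  refine ⟨h4, ?_⟩
  filter_upwards [h5, compl_mem_ae_iff.2 (measure_union_null h3 h2)] with z a1 a2
  obtain ⟨b1, b2⟩ := at_Min h hC a a2
  have c1 := b1.differentiableAt (by simp)
  have c2 := b2.differentiableAt (by simp)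
  rw [(gr_add (c1.fun_add c2) a1).1, (gr_add c1 c2).1, (gr_shift _ a z 0).1]

theorem min_ball (h : GM c u K) (hC : Cfg K G K' U χ a₀) (a : ℂ) {θ : ℂ → ℝ} {C : Set ℂ}
    (hθ : Test K' C θ) {R : ℝ} (hR : 0 < R) (hCR : C ⊆ closedBall 0 R)
    (h1 : tsupport χ ⊆ closedBall 0 R) (h2 : ∀ z ∈ tsupport χ, z + a ∈ closedBall (0 : ℂ) R) :
    ∫ z in closedBall (0 : ℂ) R, ‖gr (wf χ u) z + gr (sf χ u) z‖ ^ 2 ≤
      ∫ z in closedBall (0 : ℂ) R, ‖gr (wf χ u) (z - a) + gr (sf χ u) z + gr θ z‖ ^ 2 := by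
  have hm := h.min 0 R _ _ hR (subset_univ _) (comp_Min h hC a hθ hCR h1 h2)
  have hu := h.upper hR (subset_univ (closedBall (0 : ℂ) R))
  have hfin : μH[1] (K ∩ closedBall (0 : ℂ) R) ≠ ∞ :=
    ((le_add_self.trans hu).trans_lt ENNReal.ofReal_lt_top).ne
  rw [zero_mul, zero_mul, ENNReal.ofReal_zero, add_zero] at hm
  have k1 := (ENNReal.add_le_add_iff_right hfin).1
    (hm.trans (add_le_add le_rfl (len_Min hC a h1)))
  obtain ⟨p0, -, -, -, -, -, -, -, -, p1, -⟩ := pieces h hC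
  obtain ⟨l1, l2, l3⟩ := pieces_L2 h hC
  obtain ⟨l4, e4⟩ := ae_Min h hC a hθ
  have e1 : Dir u (closedBall 0 R \ K) = Dir u (closedBall 0 R) := by
    rw [Dir, Dir, Measure.restrict_congr_set (sdiff_null_ae_eq_self p0)]
  have k2 : Dir u (closedBall 0 R) ≤
      Dir (fun z => wf χ u (z - a) + sf χ u z + θ z) (closedBall 0 R) := by
    rw [← e1]
    exact k1.trans (lintegral_mono_set sdiff_subset)
  have l5 : MemLp (fun z => gr (wf χ u) (z - a) + gr (sf χ u) z + gr θ z) 2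
      (volume.restrict (closedBall (0 : ℂ) R)) :=
    (((l1.comp_measurePreserving (measurePreserving_sub_right volume a)).restrict _).add
      (l2 R)).add (l4.restrict _)
  have l6 := (memLp_congr_ae (ae_restrict_of_ae (s := closedBall (0 : ℂ) R) e4)).2 l5
  rw [(dir_eq _ _).2 ((dir_eq _ _).1.2 (l3 R)), (dir_eq _ _).2 ((dir_eq _ _).1.2 l6),
    ENNReal.ofReal_le_ofReal_iff (integral_nonneg fun z => by positivity)] at k2
  refine le_trans (le_of_eq (integral_congr_ae (ae_restrict_of_ae ?_)))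
    (k2.trans (le_of_eq (integral_congr_ae (ae_restrict_of_ae ?_))))
  · filter_upwards [compl_mem_ae_iff.2 p0] with z hz
    rw [p1 z hz]
  · filter_upwards [e4] with z hz
    rw [hz]

end Vale.Agent.P128.EARN
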