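import Vale.Agent.P128.EARN.Cut
import Vale.Agent.P128.EARN.Hol

/-! P128 EARN/Zero. The energy change vanishes. Plan: P = s + p has holomorphic dz off
K' (holo_iff_lap); E a = 2 integral of dz P (z + a) * gr w z is holomorphic on ball 0 a0
(hol_shift); re E a = 2 int inner (gr w (z - a)) (gr s z) - 2 int h (z - a) p z by translation and
div_wa; hence ech a + ech (-a) = re (E a + E (-a)) - 2 re E 0; ech >= 0 by min_pert with psi = 0,
C empty; min_re for a -> E a + E (-a). -/

namespace Vale.Agent.P128.EARN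

open MeasureTheory Set Metric Filter Topology
open scoped ENNReal

variable {c : ℝ} {u : ℂ → ℝ} {K G K' U : Set ℂ} {χ : ℂ → ℝ} {a₀ : ℝ}

theorem holo_pieces (h : GM c u K) (hC : Cfg K G K' U χ a₀) {p : ℂ → ℝ} (hp : Pot (hf χ u) p) :
    DifferentiableOn ℂ (dz (fun z => sf χ u z + p z)) K'ᶜ ∧
    DifferentiableOn ℂ (dz (fun z => wf χ u z - p z)) Gᶜ ∧
    DifferentiableOn ℂ (dz p) (tsupport χ)ᶜ := by
  obtain ⟨-, hw, hs, -, -, hsup, lw, ls, -⟩ := pieces h hC
  have le2 : (2 : WithTop ℕ∞) ≤ (⊤ : ℕ∞) := ENat.LEInfty.out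
  have hp2 : ContDiff ℝ 2 p := hp.smooth.of_le le2
  have o1 : IsOpen K'ᶜ := hC.cK.isOpen_compl
  have o2 : IsOpen Gᶜ := hC.cG.isClosed.isOpen_compl
  refine ⟨(holo_iff_lap o1 ((hs.of_le le2).add hp2.contDiffOn)).2 fun z hz => ?_,
    (holo_iff_lap o2 ((hw.of_le le2).sub hp2.contDiffOn)).2 fun z hz => ?_,
    (holo_iff_lap (isClosed_tsupport χ).isOpen_compl hp2.contDiffOn).2 fun z hz => ?_⟩
  · rw [(lap_add ((hs.of_le le2).contDiffAt (o1.mem_nhds hz)) hp2.contDiffAt).1, ls z hz, hp.lap,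
      neg_add_cancel]
  · rw [(lap_add ((hw.of_le le2).contDiffAt (o2.mem_nhds hz)) hp2.contDiffAt).2.1, lw z hz, hp.lap,
      sub_self]
  · rw [hp.lap]
    exact image_eq_zero_of_notMem_tsupport fun h1 => hz (hC.sets.2.2.2.2.2.2.1 (hsup h1))

theorem intW_Zero (h : GM c u K) (hC : Cfg K G K' U χ a₀) : Integrable (gr (wf χ u)) := by
  have h0 := (pieces h hC).2.2.2.2.2.2.2.2.1
  have : Fact (volume (tsupport χ) < ∞) := ⟨hC.supp.isCompact.measure_lt_top⟩
  refine (integrableOn_iff_integrable_of_support_subset (s := tsupport χ) fun z hz => ?_).1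
    (((pieces_L2 h hC).1.restrict _).integrable one_le_two)
  by_contra hn
  exact hz (h0 z hn).2.1

theorem shift_Zero (W : ℂ → ℂ) (q : ℂ → ℝ) (a : ℂ) :
    ∫ z, inner ℝ (W (z - a)) (gr q z) = ∫ z, (dz q (z + a) * W z).re := by
  rw [← integral_add_right_eq_self _ a]
  refine integral_congr_ae (Eventually.of_forall fun z => ?_)
  simp only [add_sub_cancel_right]
  rw [real_inner_comm, inner_gr_eq]

theorem hol_Zero (h : GM c u K) (hC : Cfg K G K' U χ a₀) {p : ℂ → ℝ} (hp : Pot (hf χ u) p)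
    {a : ℂ} (ha : a ∈ ball (0 : ℂ) a₀) :
    Integrable (fun z => dz (fun z => sf χ u z + p z) (z + a) * gr (wf χ u) z) ∧
      DifferentiableAt ℂ (fun a => ∫ z, dz (fun z => sf χ u z + p z) (z + a) * gr (wf χ u) z) a := by
  have h1 := hol_shift hC.cK.isOpen_compl (holo_pieces h hC hp).1 hC.supp.isCompact hC.apos
    ((cthickening_mono (by linarith [hC.apos]) _).trans hC.far.subset_compl_right) (intW_Zero h hC)
    (fun z hz => ((pieces h hC).2.2.2.2.2.2.2.2.1 z hz).2.1) (measurable_gr _).2 ha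
  exact ⟨h1.1, h1.2.differentiableAt⟩

theorem re_Zero (h : GM c u K) (hC : Cfg K G K' U χ a₀) {p : ℂ → ℝ} (hp : Pot (hf χ u) p)
    {a : ℂ} (ha : a ∈ ball (0 : ℂ) a₀) :
    ∫ z, inner ℝ (gr (wf χ u) (z - a)) (gr (sf χ u) z) =
      (∫ z, dz (fun z => sf χ u z + p z) (z + a) * gr (wf χ u) z).re +
        ∫ z, hf χ u (z - a) * p z := by
  obtain ⟨-, -, hs, -, -, -, -, -, h0, -⟩ := pieces h hC
  have i1 := (hol_Zero h hC hp ha).1
  have hc : Continuous (dz p) :=
    continuousOn_univ.1 (contDiffOn_gr isOpen_univ hp.smooth.contDiffOn).2.1.continuousOn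
  have i2 : Integrable fun z => dz p (z + a) * gr (wf χ u) z := by
    refine (integrableOn_iff_integrable_of_support_subset (s := tsupport χ) fun z hz => ?_).1
      (IntegrableOn.continuousOn_mul (by fun_prop) (intW_Zero h hC).integrableOn hC.supp.isCompact)
    by_contra hn
    exact hz (by simp only [(h0 z hn).2.1, mul_zero])
  have e1 := div_wa h hC (hp.smooth.of_le (by exact_mod_cast le_top)) a
  rw [shift_Zero] at e1 ⊢
  have e2 : ∀ z, (dz (sf χ u) (z + a) * gr (wf χ u) z).re =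
      (dz (fun z => sf χ u z + p z) (z + a) * gr (wf χ u) z).re -
        (dz p (z + a) * gr (wf χ u) z).re := fun z => by
    by_cases hz : z ∈ tsupport χ
    · have hn : z + a ∉ K' := hC.sets.2.2.2.2.2.2.2 z hz a (by
        have := mem_ball_zero_iff.1 ha
        linarith [hC.apos])
      rw [(gr_add ((hs.contDiffAt (hC.cK.isOpen_compl.mem_nhds hn)).differentiableAt (by simp))
        (hp.smooth.differentiable (by simp) _)).2.2.1, add_mul, Complex.add_re, add_sub_cancel_right]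
    · simp only [(h0 z hz).2.1, mul_zero, Complex.zero_re, sub_self]
  simp only [e2]
  refine (integral_sub i1.re i2.re).trans ?_
  rw [integral_re i1, sub_eq_add_neg]
  congr 1
  exact neg_eq_iff_eq_neg.2 e1

theorem prod_Zero {H p : ℂ → ℝ} (hH : Continuous H) (hc : HasCompactSupport H) (hp : Continuous p)
    (a : ℂ) : ∫ z, (H (z - a) - H z) * (p (z - a) - p z) =
      2 * (∫ z, H (z - 0) * p z) - (∫ z, H (z - a) * p z) - ∫ z, H (z - -a) * p z := by
  have i : ∀ b b' : ℂ, Integrable fun z => H (z - b) * p (z - b') := fun b b' =>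
    Continuous.integrable_of_hasCompactSupport (by fun_prop)
      (hc.comp_homeomorph (Homeomorph.subRight b)).mul_right
  have i1 := i a a
  have i2 := i a 0
  have i3 := i 0 a
  have i4 := i 0 0
  simp only [sub_zero] at i2 i3 i4 ⊢
  have e1 : ∫ z, H (z - a) * p (z - a) = ∫ z, H z * p z :=
    integral_sub_right_eq_self (fun z => H z * p z) a
  have e2 : ∫ z, H z * p (z - a) = ∫ z, H (z - -a) * p z := by
    rw [← integral_add_right_eq_self _ a]
    simp only [add_sub_cancel_right, sub_neg_eq_add]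
  have e3 : ∀ z, (H (z - a) - H z) * (p (z - a) - p z) =
      (H (z - a) * p (z - a) - H (z - a) * p z) - (H z * p (z - a) - H z * p z) := fun z => by ring
  simp only [e3]
  refine (integral_sub (i1.sub i2) (i3.sub i4)).trans ?_
  simp only [Pi.sub_apply]
  rw [integral_sub i1 i2, integral_sub i3 i4, e1, e2]
  ring

theorem pos_Zero (h : GM c u K) (hC : Cfg K G K' U χ a₀) {p : ℂ → ℝ} (hp : Pot (hf χ u) p)
    {a : ℂ} (ha : a ∈ ball (0 : ℂ) a₀) : 0 ≤ ech χ u p a := by
  have hψ : Test K' ∅ fun _ => 0 := ⟨fun _ _ => rfl,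
    (LipschitzWith.const (0 : ℝ)).locallyLipschitz.locallyLipschitzOn, ⟨0, by simp⟩, by
      have : ‖(0 : ℂ →L[ℝ] ℝ)‖ₑ = 0 := by rw [← ofReal_norm, norm_zero, ENNReal.ofReal_zero]
      simp [Dir, this]⟩
  simpa using min_pert h hC hp (mem_ball_zero_iff.1 ha).le isCompact_empty (empty_disjoint _) hψ 0

theorem ech_zero (h : GM c u K) (hC : Cfg K G K' U χ a₀) {p : ℂ → ℝ} (hp : Pot (hf χ u) p) :
    ∀ᶠ a in 𝓝 (0 : ℂ), ech χ u p a = 0 := by
  obtain ⟨-, -, -, hH, hc, -⟩ := pieces h hC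
  have hneg : ∀ a ∈ ball (0 : ℂ) a₀, -a ∈ ball (0 : ℂ) a₀ := fun a ha => by simpa using ha
  have hd := fun a ha => (hol_Zero h hC hp (a := a) ha).2
  have hr := fun a ha => re_Zero h hC hp (a := a) ha
  have hpos := fun a ha => pos_Zero h hC hp (a := a) ha
  obtain ⟨J, hJ⟩ : ∃ J : ℂ → ℂ,
      J = fun a => ∫ z, dz (fun z => sf χ u z + p z) (z + a) * gr (wf χ u) z := ⟨_, rfl⟩
  rw [← hJ] at hd
  have h00 : (0 : ℂ) ∈ ball (0 : ℂ) a₀ := mem_ball_self hC.apos
  have key : ∀ a ∈ ball (0 : ℂ) a₀, ech χ u p a + ech χ u p (-a) =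
      2 * ((J a + J (-a)).re - (J 0 + J (-0)).re) := fun a ha => by
    have r0 := hr 0 h00
    have r1 := hr a ha
    have r2 := hr (-a) (hneg a ha)
    have p1 := prod_Zero hH.continuous hc hp.smooth.continuous a
    have p2 := prod_Zero hH.continuous hc hp.smooth.continuous (-a)
    simp only [sub_zero, neg_neg] at r0 p1 p2
    simp only [ech, hJ, neg_zero, Complex.add_re]
    linarith
  have hF : DifferentiableOn ℂ (fun a => J a + J (-a)) (ball 0 a₀) := fun a ha =>
    ((hd a ha).add ((hd _ (hneg a ha)).comp a differentiableAt_id.neg)).differentiableWithinAt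
  have hm := min_re hC.apos hF fun a ha => by
    have := key a ha
    have := hpos a ha
    have := hpos _ (hneg a ha)
    linarith
  filter_upwards [hm, ball_mem_nhds (0 : ℂ) hC.apos] with a h1 ha
  have := key a ha
  have := hpos a ha
  have := hpos _ (hneg a ha)
  linarith

end Vale.Agent.P128.EARN
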